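import Vale.Agent.P113B.Flags
import Vale.Agent.P113.Iface

/-! P113: the ring of periodic admissible functions (blocks B1 and B2). -/

open MeasureTheory Set Filter Topology Function
open scoped ContDiff

noncomputable section

namespace Vale.Agent.P113

theorem adm_rat (q : ℚ) : (fun _ _ => (q : ℝ) : Fn) ∈ Adm :=
  Subring.subset_closure (Or.inl ⟨q, rfl⟩)

theorem adm_kinv : (fun _ _ => kappa⁻¹ : Fn) ∈ Adm :=
  Subring.subset_closure (Or.inr (Or.inl rfl))

theorem adm_log {r : ℚ} (hr : 0 < r) : (fun _ _ => Real.log r : Fn) ∈ Adm :=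
  Subring.subset_closure (Or.inr (Or.inr (Or.inl ⟨r, hr, rfl⟩)))

theorem adm_per_t {g : Bump} (hg : g.Valid) : (fun t _ => per g.eval t : Fn) ∈ Adm :=
  Subring.subset_closure (Or.inr (Or.inr (Or.inr (Or.inl ⟨g, hg, rfl⟩))))

theorem adm_per_x {g : Bump} (hg : g.Valid) (j : Fin 3) :
    (fun _ x => per g.eval (x j) : Fn) ∈ Adm :=
  Subring.subset_closure (Or.inr (Or.inr (Or.inr (Or.inr ⟨g, j, hg, rfl⟩))))

theorem adm_zero : (fun _ _ => 0 : Fn) ∈ Adm := Adm.zero_mem

theorem adm_one : (fun _ _ => 1 : Fn) ∈ Adm := Adm.one_mem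

theorem adm_add {F G : Fn} (hF : F ∈ Adm) (hG : G ∈ Adm) :
    (fun t x => F t x + G t x : Fn) ∈ Adm := Adm.add_mem hF hG

theorem adm_sub {F G : Fn} (hF : F ∈ Adm) (hG : G ∈ Adm) :
    (fun t x => F t x - G t x : Fn) ∈ Adm := Adm.sub_mem hF hG

theorem adm_neg {F : Fn} (hF : F ∈ Adm) : (fun t x => -F t x : Fn) ∈ Adm := Adm.neg_mem hF

theorem adm_mul {F G : Fn} (hF : F ∈ Adm) (hG : G ∈ Adm) :
    (fun t x => F t x * G t x : Fn) ∈ Adm := Adm.mul_mem hF hG

theorem adm_listSum {α : Type} (L : List α) (F : α → Fn) (h : ∀ a ∈ L, F a ∈ Adm) :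
    (fun t x => (L.map fun a => F a t x).sum : Fn) ∈ Adm := by
  induction L with
  | nil => exact adm_zero
  | cons a L ih =>
    simp only [List.map_cons, List.sum_cons]
    exact adm_add (h a List.mem_cons_self) (ih fun b hb => h b (List.mem_cons_of_mem _ hb))

theorem adm_finSum {α : Type} (s : Finset α) (F : α → Fn) (h : ∀ a ∈ s, F a ∈ Adm) :
    (fun t x => ∑ a ∈ s, F a t x : Fn) ∈ Adm := by
  have : (fun t x => ∑ a ∈ s, F a t x : Fn) = ∑ a ∈ s, F a := by
    funext t x
    simp only [Finset.sum_apply]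
  rw [this]
  exact Adm.sum_mem h

/-- The five properties of block B1. -/
def Nice5 (F : Fn) : Prop :=
  ContDiff ℝ ∞ (fun z : ℝ × (Fin 3 → ℝ) => F z.1 z.2) ∧
    (∀ t (x : Fin 3 → ℝ) (m : Fin 3 → ℤ), F t (x + fun i => (m i : ℝ)) = F t x) ∧
    (∀ t x, F (t + 1) x = F t x) ∧ dT F ∈ Adm ∧ ∀ j, dx j F ∈ Adm

theorem nice5_const (c : ℝ) : Nice5 fun _ _ => c := by
  refine ⟨contDiff_const, fun _ _ _ => rfl, fun _ _ => rfl, ?_, fun j => ?_⟩
  · have : dT (fun _ _ => c) = fun _ _ => 0 := by
      funext t x; simp [dT]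
    rw [this]; exact adm_zero
  · have : dx j (fun _ _ => c) = fun _ _ => 0 := by
      funext t x; simp [dx]
    rw [this]; exact adm_zero

theorem hasDerivAt_dT {F : Fn} (hF : ContDiff ℝ ∞ fun z : ℝ × (Fin 3 → ℝ) => F z.1 z.2) (t : ℝ)
    (x : Fin 3 → ℝ) : HasDerivAt (fun s => F s x) (dT F t x) t :=
  ((hF.comp (f := fun s : ℝ => (s, x)) (contDiff_id.prodMk contDiff_const)).differentiable
    (by simp) t).hasDerivAt

theorem hasDerivAt_dx {F : Fn} (hF : ContDiff ℝ ∞ fun z : ℝ × (Fin 3 → ℝ) => F z.1 z.2)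
    (j : Fin 3) (t : ℝ) (x : Fin 3 → ℝ) :
    HasDerivAt (fun s => F t (update x j s)) (dx j F t x) (x j) :=
  ((hF.comp (f := fun s : ℝ => (t, update x j s))
    (contDiff_const.prodMk (contDiff_update _ x j))).differentiable (by simp) (x j)).hasDerivAt

theorem nice5_of_adm {F : Fn} (hF : F ∈ Adm) : Nice5 F := by
  induction hF using Subring.closure_induction with
  | mem F hF =>
    rcases hF with ⟨q, rfl⟩ | rfl | ⟨r, _, rfl⟩ | ⟨g, hg, rfl⟩ | ⟨g, j, hg, rfl⟩
    · exact nice5_const _
    · exact nice5_const _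
    · exact nice5_const _
    · refine ⟨(contDiff_perBump hg).comp contDiff_fst, fun _ _ _ => rfl,
        fun t _ => per_add_one _ t, ?_, fun j => ?_⟩
      · have : dT (fun t _ => per g.eval t) =
            fun t _ => ((dBump g).map fun r => (r.1 : ℝ) * per (Bump.eval r.2) t).sum := by
          funext t x
          exact (hasDerivAt_perBump hg t).deriv
        rw [this]
        refine adm_listSum (dBump g)
          (fun (r : ℚ × Bump) t _ => (r.1 : ℝ) * per (Bump.eval r.2) t) fun r hr => ?_
        exact adm_mul (adm_rat r.1) (adm_per_t (wf_dBump hg r hr))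
      · have : dx j (fun t _ => per g.eval t) = fun _ _ => 0 := by
          funext t x; simp [dx]
        rw [this]; exact adm_zero
    · refine ⟨(contDiff_perBump hg).comp ((contDiff_apply ℝ ℝ j).comp contDiff_snd),
        fun _ x m => per_add_int _ (x j) (m j), fun _ _ => rfl, ?_, fun k => ?_⟩
      · have : dT (fun _ x => per g.eval (x j)) = fun _ _ => 0 := by
          funext t x; simp [dT]
        rw [this]; exact adm_zero
      · by_cases h : j = k
        · subst h
          have : dx j (fun _ x => per g.eval (x j)) =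
              fun _ x => ((dBump g).map fun r => (r.1 : ℝ) * per (Bump.eval r.2) (x j)).sum := by
            funext t x
            simp only [dx, update_self]
            exact (hasDerivAt_perBump hg (x j)).deriv
          rw [this]
          refine adm_listSum (dBump g)
            (fun (r : ℚ × Bump) _ x => (r.1 : ℝ) * per (Bump.eval r.2) (x j)) fun r hr => ?_
          exact adm_mul (adm_rat r.1) (adm_per_x (wf_dBump hg r hr) j)
        · have : dx k (fun _ x => per g.eval (x j)) = fun _ _ => 0 := by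
            funext t x; simp [dx, update_of_ne h]
          rw [this]; exact adm_zero
  | zero => exact nice5_const 0
  | one => exact nice5_const 1
  | add F G _ _ hF hG =>
    refine ⟨hF.1.add hG.1, fun t x m => ?_, fun t x => ?_, ?_, fun j => ?_⟩
    · simp only [Pi.add_apply, hF.2.1, hG.2.1]
    · simp only [Pi.add_apply, hF.2.2.1, hG.2.2.1]
    · have : dT (F + G) = fun t x => dT F t x + dT G t x := by
        funext t x
        exact ((hasDerivAt_dT hF.1 t x).add (hasDerivAt_dT hG.1 t x)).deriv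
      rw [this]
      exact adm_add hF.2.2.2.1 hG.2.2.2.1
    · have : dx j (F + G) = fun t x => dx j F t x + dx j G t x := by
        funext t x
        exact ((hasDerivAt_dx hF.1 j t x).add (hasDerivAt_dx hG.1 j t x)).deriv
      rw [this]
      exact adm_add (hF.2.2.2.2 j) (hG.2.2.2.2 j)
  | neg F _ hF =>
    refine ⟨hF.1.neg, fun t x m => ?_, fun t x => ?_, ?_, fun j => ?_⟩
    · simp only [Pi.neg_apply, hF.2.1]
    · simp only [Pi.neg_apply, hF.2.2.1]
    · have : dT (-F) = fun t x => -dT F t x := by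
        funext t x
        exact (hasDerivAt_dT hF.1 t x).neg.deriv
      rw [this]
      exact adm_neg hF.2.2.2.1
    · have : dx j (-F) = fun t x => -dx j F t x := by
        funext t x
        exact (hasDerivAt_dx hF.1 j t x).neg.deriv
      rw [this]
      exact adm_neg (hF.2.2.2.2 j)
  | mul F G mF mG hF hG =>
    refine ⟨hF.1.mul hG.1, fun t x m => ?_, fun t x => ?_, ?_, fun j => ?_⟩
    · simp only [Pi.mul_apply, hF.2.1, hG.2.1]
    · simp only [Pi.mul_apply, hF.2.2.1, hG.2.2.1]
    · have : dT (F * G) = fun t x => dT F t x * G t x + F t x * dT G t x := by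
        funext t x
        exact ((hasDerivAt_dT hF.1 t x).mul (hasDerivAt_dT hG.1 t x)).deriv
      rw [this]
      exact adm_add (adm_mul hF.2.2.2.1 mG) (adm_mul mF hG.2.2.2.1)
    · have : dx j (F * G) = fun t x => dx j F t x * G t x + F t x * dx j G t x := by
        funext t x
        have h := ((hasDerivAt_dx hF.1 j t x).mul (hasDerivAt_dx hG.1 j t x)).deriv
        rw [update_eq_self] at h
        exact h
      rw [this]
      exact adm_add (adm_mul (hF.2.2.2.2 j) mG) (adm_mul mF (hG.2.2.2.2 j))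

/-- Block B1. -/
theorem admCalc : AdmCalcStmt := fun _ hF => nice5_of_adm hF

/-- A function of the ring is the sum of a list of valid periodic terms, for all `ν`. -/
theorem exists_list_of_adm {F : Fn} (hF : F ∈ Adm) :
    ∃ L : List Term, WFL L ∧ AllPer L ∧ ∀ ν t x, evalL ν L t x = F t x := by
  have hone : ∀ τ : Term, τ.Valid → τ.periodic = true → ∀ G : Fn, (∀ ν t x, τ.eval ν t x = G t x) →
      ∃ L : List Term, WFL L ∧ AllPer L ∧ ∀ ν t x, evalL ν L t x = G t x := by
    intro τ h1 h2 G h3
    refine ⟨[τ], WFL.cons h1 wfl_nil, fun s hs => ?_, fun ν t x => ?_⟩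
    · rw [List.mem_singleton.1 hs]; exact h2
    · rw [evalL_cons, evalL_nil, add_zero, h3]
  have hrat : ∀ q : ℚ, ∃ L : List Term, WFL L ∧ AllPer L ∧ ∀ ν t x, evalL ν L t x = (q : ℝ) :=
    fun q => hone ((q, 0, 0, []), [], fun _ => []) ⟨by simp, by simp, by simp⟩ rfl
      (fun _ _ => (q : ℝ)) fun ν t x => by simp [Term.eval_def, Coef.eval_def]
  induction hF using Subring.closure_induction with
  | mem F hF =>
    rcases hF with ⟨q, rfl⟩ | rfl | ⟨r, hr, rfl⟩ | ⟨g, hg, rfl⟩ | ⟨g, j, hg, rfl⟩
    · exact hrat q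
    · exact hone ((1, 0, -1, []), [], fun _ => []) ⟨by simp, by simp, by simp⟩ rfl _
        fun ν t x => by simp [Term.eval_def, Coef.eval_def]
    · exact hone ((1, 0, 0, [r]), [], fun _ => []) ⟨by simpa using hr, by simp, by simp⟩ rfl _
        fun ν t x => by simp [Term.eval_def, Coef.eval_def]
    · refine hone ((1, 0, 0, []), [(true, g)], fun _ => []) ⟨by simp, ?_, by simp⟩ rfl _
        fun ν t x => by simp [Term.eval_def, Coef.eval_def]
      intro p hp
      rw [List.mem_singleton.1 hp]
      exact hg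
    · refine hone ((1, 0, 0, []), [], fun i => if i = j then [g] else []) ⟨by simp, by simp, ?_⟩
        rfl _ fun ν t x => ?_
      · intro i p hp
        by_cases h : i = j
        · simp only [h, if_true] at hp
          rw [List.mem_singleton.1 hp]
          exact hg
        · simp [h] at hp
      · simp only [Term.eval_def, Coef.eval_def, Rat.cast_one, pow_zero, zpow_zero, List.map_nil,
          List.prod_nil, one_mul]
        rw [Finset.prod_eq_single j]
        · simp
        · intro i _ h
          simp [h]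
        · simp
  | zero => simpa using hrat 0
  | one => simpa using hrat 1
  | add F G _ _ hF hG =>
    obtain ⟨A, a1, a2, a3⟩ := hF
    obtain ⟨B, b1, b2, b3⟩ := hG
    refine ⟨A ++ B, a1.append b1, fun τ h => ?_, fun ν t x => ?_⟩
    · rcases List.mem_append.1 h with h | h
      exacts [a2 τ h, b2 τ h]
    · rw [evalL_append, a3, b3]; rfl
  | neg F _ hF =>
    obtain ⟨A, a1, a2, a3⟩ := hF
    refine ⟨scaleL (-1) A, a1.scaleL _, ?_, fun ν t x => ?_⟩
    · refine List.filter_eq_self.1 ?_
      rw [filter_scaleL, List.filter_eq_self.2 a2]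
    · rw [evalL_scaleL, a3]; simp
  | mul F G _ _ hF hG =>
    obtain ⟨A, a1, a2, a3⟩ := hF
    obtain ⟨B, b1, b2, b3⟩ := hG
    refine ⟨mulL A B, a1.mulL b1, ?_, fun ν t x => ?_⟩
    · refine List.filter_eq_self.1 ?_
      rw [filter_mulL, List.filter_eq_self.2 a2, List.filter_eq_self.2 b2]
    · rw [evalL_mulL, a3, b3]; rfl

/-- Block B2. -/
theorem admList : AdmListStmt := by
  intro F hF G hG
  obtain ⟨A, a1, a2, a3⟩ := exists_list_of_adm hF
  obtain ⟨B, b1, b2, b3⟩ := exists_list_of_adm hG
  refine ⟨A ++ negNuL (scaleL (-1) B), fun τ h => ⟨(a1.append (b1.scaleL _).negNuL) τ h, ?_⟩,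
    fun ν t x => ?_⟩
  · rcases List.mem_append.1 h with h | h
    · exact a2 τ h
    · refine List.filter_eq_self.1 ?_ τ h
      rw [filter_negNuL, filter_scaleL, List.filter_eq_self.2 b2]
  · change evalL ν _ t x = _
    rw [evalL_append, evalL_negNuL, evalL_scaleL, a3, b3]
    simp

end Vale.Agent.P113
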