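import Vale.Agent.P113.Defs

/-! P113: analysis of the functions `rho`, `sigma`, `piL` and of periodizations. -/

open MeasureTheory Set Filter Topology
open scoped ContDiff

noncomputable section

namespace Vale.Agent.P113

theorem rho_eq (s : ℝ) : rho s = expNegInvGlue (1 - s ^ 2) := by
  unfold rho expNegInvGlue
  by_cases h : |s| < 1
  · have h2 : 0 < 1 - s ^ 2 := by
      have := (sq_lt_one_iff_abs_lt_one s).2 h
      linarith
    rw [if_pos h, if_neg (not_le.2 h2)]
    congr 1
    rw [neg_div, one_div]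
  · have h2 : 1 - s ^ 2 ≤ 0 := by
      have := (one_le_sq_iff_one_le_abs s).2 (not_lt.1 h)
      linarith
    rw [if_neg h, if_pos h2]

theorem contDiff_rho : ContDiff ℝ ∞ rho := by
  have : rho = fun s => expNegInvGlue (1 - s ^ 2) := funext rho_eq
  rw [this]
  exact expNegInvGlue.contDiff.comp (by fun_prop)

theorem continuous_rho : Continuous rho := contDiff_rho.continuous

theorem rho_nonneg (s : ℝ) : 0 ≤ rho s := by
  rw [rho_eq]; exact expNegInvGlue.nonneg _

theorem rho_pos {s : ℝ} (h : |s| < 1) : 0 < rho s := by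
  unfold rho; rw [if_pos h]; exact Real.exp_pos _

theorem rho_zero {s : ℝ} (h : 1 ≤ |s|) : rho s = 0 := by
  unfold rho; rw [if_neg (not_lt.2 h)]

theorem hasCompactSupport_rho : HasCompactSupport rho := by
  refine HasCompactSupport.intro (isCompact_Icc (a := (-1 : ℝ)) (b := 1)) fun x hx => rho_zero ?_
  by_contra h
  exact hx ⟨(abs_lt.1 (not_le.1 h)).1.le, (abs_lt.1 (not_le.1 h)).2.le⟩

theorem integrable_rho : Integrable rho :=
  continuous_rho.integrable_of_hasCompactSupport hasCompactSupport_rho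

theorem kappa_pos : 0 < kappa := by
  unfold kappa
  exact continuous_rho.integral_pos_of_hasCompactSupport_nonneg_nonzero hasCompactSupport_rho
    rho_nonneg (x := 0) (rho_pos (by simp)).ne'

theorem contDiff_iter (j : ℕ) : ContDiff ℝ ∞ (iteratedDeriv j rho) := by
  rw [iteratedDeriv_eq_iterate]
  exact contDiff_rho.iterate_deriv j

theorem hasDerivAt_iter (j : ℕ) (s : ℝ) :
    HasDerivAt (iteratedDeriv j rho) (iteratedDeriv (j + 1) rho s) s := by
  rw [iteratedDeriv_succ]
  exact ((contDiff_iter j).differentiable (by simp) s).hasDerivAt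

theorem iter_zero_of_lt (j : ℕ) {s : ℝ} (h : 1 < |s|) : iteratedDeriv j rho s = 0 := by
  have h1 : rho =ᶠ[𝓝 s] fun _ => 0 := by
    have : ∀ᶠ x in 𝓝 s, 1 < |x| := continuous_abs.continuousAt.eventually (lt_mem_nhds h)
    filter_upwards [this] with x hx using rho_zero hx.le
  rw [h1.iteratedDeriv_eq j]
  simp

theorem iter_zero (j : ℕ) {s : ℝ} (h : 1 ≤ |s|) : iteratedDeriv j rho s = 0 := by
  have hc : IsClosed {s : ℝ | iteratedDeriv j rho s = 0} :=
    isClosed_eq (contDiff_iter j).continuous continuous_const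
  rcases le_abs'.1 h with h | h
  · have : Iio (-1 : ℝ) ⊆ {s : ℝ | iteratedDeriv j rho s = 0} := fun x hx =>
      iter_zero_of_lt j (lt_abs.2 (Or.inr (by simp only [mem_Iio] at hx; linarith)))
    have h2 := hc.closure_subset_iff.2 this
    rw [closure_Iio] at h2
    exact h2 h
  · have : Ioi (1 : ℝ) ⊆ {s : ℝ | iteratedDeriv j rho s = 0} := fun x hx =>
      iter_zero_of_lt j (lt_abs.2 (Or.inl hx))
    have h2 := hc.closure_subset_iff.2 this
    rw [closure_Ioi] at h2
    exact h2 h

theorem sigma_zero {s : ℝ} (h : s ≤ -1) : sigma s = 0 := by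
  unfold sigma
  refine setIntegral_eq_zero_of_forall_eq_zero fun x hx => rho_zero ?_
  exact le_abs'.2 (Or.inl (le_trans hx h))

theorem sigma_eq_interval (s : ℝ) : sigma s = ∫ x in (-1 : ℝ)..s, rho x := by
  have := intervalIntegral.integral_Iic_sub_Iic (f := rho) (μ := volume) (a := -1) (b := s)
    integrable_rho.integrableOn integrable_rho.integrableOn
  rw [← this]
  have h0 : sigma (-1) = 0 := sigma_zero le_rfl
  unfold sigma at h0 ⊢
  rw [h0, sub_zero]

theorem hasDerivAt_sigma (s : ℝ) : HasDerivAt sigma (rho s) s := by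
  have : sigma = fun s => ∫ x in (-1 : ℝ)..s, rho x := funext sigma_eq_interval
  rw [this]
  exact (continuous_rho.integral_hasStrictDerivAt _ _).hasDerivAt

theorem contDiff_sigma : ContDiff ℝ ∞ sigma := by
  rw [contDiff_infty_iff_deriv]
  refine ⟨fun s => (hasDerivAt_sigma s).differentiableAt, ?_⟩
  have : deriv sigma = rho := funext fun s => (hasDerivAt_sigma s).deriv
  rw [this]
  exact contDiff_rho

theorem sigma_kappa {s : ℝ} (h : 1 ≤ s) : sigma s = kappa := by
  unfold sigma kappa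
  refine setIntegral_eq_integral_of_forall_compl_eq_zero fun x hx => rho_zero ?_
  exact le_abs.2 (Or.inl (h.trans (not_le.1 hx).le))

theorem monotone_sigma : Monotone sigma :=
  monotone_of_deriv_nonneg (fun s => (hasDerivAt_sigma s).differentiableAt) fun s => by
    rw [(hasDerivAt_sigma s).deriv]; exact rho_nonneg s

theorem sigma_nonneg (s : ℝ) : 0 ≤ sigma s := by
  rcases le_total s (-1) with h | h
  · rw [sigma_zero h]
  · rw [← sigma_zero (le_refl (-1 : ℝ))]; exact monotone_sigma h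

theorem sigma_le (s : ℝ) : sigma s ≤ kappa := by
  rcases le_total s 1 with h | h
  · rw [← sigma_kappa (le_refl (1 : ℝ))]; exact monotone_sigma h
  · rw [sigma_kappa h]

theorem hasDerivAt_piL (l s : ℝ) : HasDerivAt (piL l) (rho s - rho (s - l)) s := by
  have h := (hasDerivAt_sigma s).sub
    ((hasDerivAt_sigma (s - l)).comp_sub_const s l)
  exact h

theorem contDiff_piL (l : ℝ) : ContDiff ℝ ∞ (piL l) :=
  contDiff_sigma.sub (contDiff_sigma.comp (contDiff_id.sub contDiff_const))

theorem piL_zero_left {l s : ℝ} (hl : 0 ≤ l) (h : s ≤ -1) : piL l s = 0 := by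
  unfold piL; rw [sigma_zero h, sigma_zero (by linarith), sub_zero]

theorem piL_zero_right {l s : ℝ} (hl : 0 ≤ l) (h : l + 1 ≤ s) : piL l s = 0 := by
  unfold piL; rw [sigma_kappa (by linarith), sigma_kappa (by linarith), sub_self]

theorem piL_kappa {l s : ℝ} (h1 : 1 ≤ s) (h2 : s ≤ l - 1) : piL l s = kappa := by
  unfold piL; rw [sigma_kappa h1, sigma_zero (by linarith), sub_zero]

theorem piL_nonneg {l : ℝ} (hl : 0 ≤ l) (s : ℝ) : 0 ≤ piL l s :=
  sub_nonneg.2 (monotone_sigma (by linarith))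

theorem piL_le (l s : ℝ) : piL l s ≤ kappa := by
  unfold piL; linarith [sigma_le s, sigma_nonneg (s - l)]

/-! Periodization of functions of bounded support. -/

/-- `g` vanishes outside a bounded set. -/
def BddSupp (g : ℝ → ℝ) : Prop := ∃ R : ℝ, ∀ s, R ≤ |s| → g s = 0

theorem BddSupp.add {g h : ℝ → ℝ} (hg : BddSupp g) (hh : BddSupp h) :
    BddSupp fun s => g s + h s := by
  obtain ⟨R, hR⟩ := hg
  obtain ⟨S, hS⟩ := hh
  exact ⟨max R S, fun s hs => by
    beta_reduce
    rw [hR s ((le_max_left _ _).trans hs), hS s ((le_max_right _ _).trans hs), add_zero]⟩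

theorem BddSupp.const_mul {g : ℝ → ℝ} (hg : BddSupp g) (c : ℝ) : BddSupp fun s => c * g s := by
  obtain ⟨R, hR⟩ := hg
  exact ⟨R, fun s hs => by beta_reduce; rw [hR s hs, mul_zero]⟩

theorem bddSupp_zero : BddSupp fun _ => 0 := ⟨0, fun _ _ => rfl⟩

theorem per_eq_sum {g : ℝ → ℝ} {R : ℝ} (hR : ∀ s, R ≤ |s| → g s = 0) {y : ℝ} {N : ℕ}
    (hN : R + |y| ≤ N) : per g y = ∑ m ∈ Finset.Icc (-(N : ℤ)) N, g (y + m) := by
  unfold per
  refine tsum_eq_sum fun m hm => hR _ ?_
  have h1 : (N : ℝ) ≤ |(m : ℝ)| := by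
    have : (N : ℤ) ≤ |m| := by
      rw [Finset.mem_Icc, not_and_or, not_le, not_le] at hm
      rcases hm with h | h
      · exact le_abs'.2 (Or.inl h.le)
      · exact le_abs.2 (Or.inl h.le)
    exact_mod_cast this
  have h2 : |(m : ℝ)| ≤ |y + m| + |y| := by
    have := abs_sub (y + m) y
    rwa [add_sub_cancel_left] at this
  linarith

theorem per_eventually {g : ℝ → ℝ} {R : ℝ} (hR : ∀ s, R ≤ |s| → g s = 0) (y : ℝ) {N : ℕ}
    (hN : R + |y| + 1 ≤ N) :
    per g =ᶠ[𝓝 y] fun z => ∑ m ∈ Finset.Icc (-(N : ℤ)) N, g (z + m) := by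
  have : ∀ᶠ z in 𝓝 y, |z| < |y| + 1 :=
    continuous_abs.continuousAt.eventually (gt_mem_nhds (by linarith))
  filter_upwards [this] with z hz using per_eq_sum hR (by linarith)

theorem summable_per {g : ℝ → ℝ} (hg : BddSupp g) (y : ℝ) : Summable fun m : ℤ => g (y + m) := by
  obtain ⟨R, hR⟩ := hg
  obtain ⟨N, hN⟩ := exists_nat_ge (R + |y|)
  refine summable_of_ne_finset_zero (s := Finset.Icc (-(N : ℤ)) N) fun m hm => hR _ ?_
  have h1 : (N : ℝ) ≤ |(m : ℝ)| := by
    have : (N : ℤ) ≤ |m| := by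
      rw [Finset.mem_Icc, not_and_or, not_le, not_le] at hm
      rcases hm with h | h
      · exact le_abs'.2 (Or.inl h.le)
      · exact le_abs.2 (Or.inl h.le)
    exact_mod_cast this
  have h2 : |(m : ℝ)| ≤ |y + m| + |y| := by
    have := abs_sub (y + m) y
    rwa [add_sub_cancel_left] at this
  linarith

theorem contDiff_per {g : ℝ → ℝ} (hg : BddSupp g) (hs : ContDiff ℝ ∞ g) : ContDiff ℝ ∞ (per g) := by
  obtain ⟨R, hR⟩ := hg
  rw [contDiff_iff_contDiffAt]
  intro y
  obtain ⟨N, hN⟩ := exists_nat_ge (R + |y| + 1)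
  refine ContDiffAt.congr_of_eventuallyEq ?_ (per_eventually hR y hN)
  exact (ContDiff.sum fun m _ => hs.comp (contDiff_id.add contDiff_const)).contDiffAt

theorem hasDerivAt_per {g g' : ℝ → ℝ} (hg : BddSupp g) (hg' : BddSupp g')
    (hd : ∀ s, HasDerivAt g (g' s) s) (y : ℝ) : HasDerivAt (per g) (per g' y) y := by
  obtain ⟨R, hR⟩ := hg
  obtain ⟨S, hS⟩ := hg'
  obtain ⟨N, hN⟩ := exists_nat_ge (max R S + |y| + 1)
  refine HasDerivAt.congr_of_eventuallyEq ?_
    (per_eventually hR y (N := N) (by linarith [le_max_left R S]))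
  rw [per_eq_sum hS (N := N) (by linarith [le_max_right R S])]
  exact HasDerivAt.fun_sum fun m _ => (hd (y + m)).comp_add_const y m

theorem per_add {g h : ℝ → ℝ} (hg : BddSupp g) (hh : BddSupp h) (y : ℝ) :
    per (fun s => g s + h s) y = per g y + per h y :=
  (summable_per hg y).tsum_add (summable_per hh y)

theorem per_const_mul (c : ℝ) (g : ℝ → ℝ) (y : ℝ) : per (fun s => c * g s) y = c * per g y :=
  tsum_mul_left

theorem per_zero (y : ℝ) : per (fun _ => 0) y = 0 := tsum_zero

theorem per_add_int (g : ℝ → ℝ) (y : ℝ) (n : ℤ) : per g (y + n) = per g y := by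
  unfold per
  rw [← (Equiv.addLeft n).tsum_eq fun m : ℤ => g (y + m)]
  refine tsum_congr fun m => ?_
  simp [add_assoc]

theorem per_add_one (g : ℝ → ℝ) (y : ℝ) : per g (y + 1) = per g y := by
  simpa using per_add_int g y 1

/-- If `g` vanishes outside `(lo, hi)`, then `per g = g` on `[hi - 1, lo + 1]`. -/
theorem per_eq_self {g : ℝ → ℝ} {lo hi : ℝ} (h1 : ∀ s, s ≤ lo → g s = 0)
    (h2 : ∀ s, hi ≤ s → g s = 0) {y : ℝ} (hy1 : hi - 1 ≤ y) (hy2 : y ≤ lo + 1) :
    per g y = g y := by
  unfold per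
  rw [tsum_eq_single 0]
  · simp
  · intro m hm
    rcases lt_or_gt_of_ne hm with h | h
    · have : (m : ℝ) ≤ -1 := by exact_mod_cast (show m ≤ -1 by omega)
      exact h1 _ (by linarith)
    · have : (1 : ℝ) ≤ m := by exact_mod_cast (show 1 ≤ m by omega)
      exact h2 _ (by linarith)

end Vale.Agent.P113
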