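import Vale.Agent.P113B.Ops0

/-! P113: the symbolic operations compute products and derivatives. -/

open MeasureTheory Set Filter Topology Function
open scoped ContDiff

noncomputable section

namespace Vale.Agent.P113B

/-! ### Bumps -/

theorem Bump.eval_inl (k j : ℕ) (a b : ℚ) (s : ℝ) :
    Bump.eval (k, Sum.inl j, a, b) s = s ^ k * iteratedDeriv j rho (a * s - b) := rfl

theorem Bump.eval_inr (k : ℕ) (l a b : ℚ) (s : ℝ) :
    Bump.eval (k, Sum.inr l, a, b) s = s ^ k * piL l (a * s - b) := rfl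

theorem Bump.wf_inl {k j : ℕ} {a b : ℚ} (ha : a ≠ 0) : Bump.WF (k, Sum.inl j, a, b) :=
  ⟨ha, fun _ h => by simp at h⟩

theorem Bump.wf_inr {k : ℕ} {l a b : ℚ} (ha : a ≠ 0) (hl : 0 < l) :
    Bump.WF (k, Sum.inr l, a, b) :=
  ⟨ha, fun _ h => by
    have : l = _ := Sum.inr.inj h
    exact this ▸ hl⟩

theorem contDiff_bump (g : Bump) : ContDiff ℝ ∞ (Bump.eval g) := by
  obtain ⟨k, j | l, a, b⟩ := g
  · exact (contDiff_id.pow k).mul
      ((contDiff_iter j).comp ((contDiff_const.mul contDiff_id).sub contDiff_const))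
  · exact (contDiff_id.pow k).mul
      ((contDiff_piL l).comp ((contDiff_const.mul contDiff_id).sub contDiff_const))

theorem abs_affine_ge {a b C s : ℝ} (ha : a ≠ 0) (hs : (|b| + C) / |a| ≤ |s|) :
    C ≤ |a * s - b| := by
  have h1 : 0 < |a| := abs_pos.2 ha
  rw [div_le_iff₀ h1] at hs
  have h2 : |a * s| ≤ |a * s - b| + |b| := by
    have := abs_add_le (a * s - b) b
    rwa [sub_add_cancel] at this
  rw [abs_mul] at h2
  linarith

theorem bddSupp_bump {g : Bump} (hg : Bump.WF g) : BddSupp (Bump.eval g) := by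
  obtain ⟨k, j | l, a, b⟩ := g
  · have ha : (a : ℝ) ≠ 0 := by exact_mod_cast hg.1
    refine ⟨(|(b : ℝ)| + 1) / |(a : ℝ)|, fun s hs => ?_⟩
    rw [Bump.eval_inl, iter_zero j (abs_affine_ge ha hs), mul_zero]
  · have ha : (a : ℝ) ≠ 0 := by exact_mod_cast hg.1
    have hl : (0 : ℝ) < l := by exact_mod_cast hg.2 l rfl
    refine ⟨(|(b : ℝ)| + (l + 1)) / |(a : ℝ)|, fun s hs => ?_⟩
    rw [Bump.eval_inr]
    rcases le_abs'.1 (abs_affine_ge ha hs) with h | h
    · rw [piL_zero_left hl.le (by linarith), mul_zero]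
    · rw [piL_zero_right hl.le h, mul_zero]

theorem wf_dBump {g : Bump} (hg : Bump.WF g) : ∀ r ∈ dBump g, Bump.WF r.2 := by
  obtain ⟨k, j | l, a, b⟩ := g
  · intro r hr
    simp only [dBump, Sum.elim_inl, List.mem_cons, List.not_mem_nil, or_false] at hr
    rcases hr with rfl | rfl
    · exact Bump.wf_inl hg.1
    · exact Bump.wf_inl hg.1
  · intro r hr
    simp only [dBump, Sum.elim_inr, List.mem_cons, List.not_mem_nil, or_false] at hr
    rcases hr with rfl | rfl | rfl
    · exact Bump.wf_inr hg.1 (hg.2 l rfl)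
    · exact Bump.wf_inl hg.1
    · exact Bump.wf_inl hg.1

theorem hasDerivAt_bump (g : Bump) (s : ℝ) :
    HasDerivAt (Bump.eval g) ((dBump g).map fun r => (r.1 : ℝ) * Bump.eval r.2 s).sum s := by
  obtain ⟨k, j | l, a, b⟩ := g
  · have h1 : HasDerivAt (fun s : ℝ => (a : ℝ) * s - b) a s := by
      simpa using ((hasDerivAt_id s).const_mul (a : ℝ)).sub_const (b : ℝ)
    have h2 := (hasDerivAt_pow k s).mul ((hasDerivAt_iter j ((a : ℝ) * s - b)).comp s h1)
    refine HasDerivAt.congr_deriv h2 (Eq.symm ?_)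
    simp only [dBump, Sum.elim_inl, List.map_cons, List.map_nil, List.sum_cons, List.sum_nil,
      Bump.eval_inl, Function.comp, Rat.cast_natCast]
    ring
  · have h1 : HasDerivAt (fun s : ℝ => (a : ℝ) * s - b) a s := by
      simpa using ((hasDerivAt_id s).const_mul (a : ℝ)).sub_const (b : ℝ)
    have h2 := (hasDerivAt_pow k s).mul ((hasDerivAt_piL l ((a : ℝ) * s - b)).comp s h1)
    refine HasDerivAt.congr_deriv h2 (Eq.symm ?_)
    simp only [dBump, Sum.elim_inr, List.map_cons, List.map_nil, List.sum_cons, List.sum_nil,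
      Bump.eval_inl, Bump.eval_inr, Function.comp, Rat.cast_natCast, iteratedDeriv_zero,
      Rat.cast_neg, Rat.cast_add]
    rw [show (a : ℝ) * s - (b + l) = a * s - b - l by ring]
    ring

theorem bddSupp_comb {R : List (ℚ × Bump)} (hR : ∀ r ∈ R, Bump.WF r.2) :
    BddSupp fun s => (R.map fun r => (r.1 : ℝ) * Bump.eval r.2 s).sum := by
  induction R with
  | nil => exact bddSupp_zero
  | cons r R ih =>
    simp only [List.map_cons, List.sum_cons]
    exact ((bddSupp_bump (hR r List.mem_cons_self)).const_mul _).add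
      (ih fun r' h => hR r' (List.mem_cons_of_mem _ h))

theorem per_comb {R : List (ℚ × Bump)} (hR : ∀ r ∈ R, Bump.WF r.2) (y : ℝ) :
    per (fun s => (R.map fun r => (r.1 : ℝ) * Bump.eval r.2 s).sum) y =
      (R.map fun r => (r.1 : ℝ) * per (Bump.eval r.2) y).sum := by
  induction R with
  | nil => exact per_zero y
  | cons r R ih =>
    simp only [List.map_cons, List.sum_cons]
    rw [per_add ((bddSupp_bump (hR r List.mem_cons_self)).const_mul _)
      (bddSupp_comb fun r' h => hR r' (List.mem_cons_of_mem _ h)), per_const_mul,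
      ih fun r' h => hR r' (List.mem_cons_of_mem _ h)]

theorem contDiff_perBump {g : Bump} (hg : Bump.WF g) : ContDiff ℝ ∞ (per (Bump.eval g)) :=
  contDiff_per (bddSupp_bump hg) (contDiff_bump g)

theorem hasDerivAt_perBump {g : Bump} (hg : Bump.WF g) (y : ℝ) :
    HasDerivAt (per (Bump.eval g))
      ((dBump g).map fun r => (r.1 : ℝ) * per (Bump.eval r.2) y).sum y := by
  rw [← per_comb (wf_dBump hg)]
  exact hasDerivAt_per (bddSupp_bump hg) (bddSupp_comb (wf_dBump hg)) (hasDerivAt_bump g) y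

/-! ### Time factors -/

@[simp] theorem timeFactor_true (g : Bump) : timeFactor (true, g) = per (Bump.eval g) := rfl

@[simp] theorem timeFactor_false (g : Bump) : timeFactor (false, g) = Bump.eval g := rfl

theorem contDiff_timeFactor {p : Bool × Bump} (hp : Bump.WF p.2) :
    ContDiff ℝ ∞ (timeFactor p) := by
  obtain ⟨_ | _, g⟩ := p
  · exact contDiff_bump g
  · exact contDiff_perBump hp

theorem wf_dTime {p : Bool × Bump} (hp : Bump.WF p.2) : ∀ r ∈ dTime p, Bump.WF r.2.2 := by
  intro r hr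
  obtain ⟨r', h, rfl⟩ := List.mem_map.1 hr
  exact wf_dBump hp r' h

theorem hasDerivAt_timeFactor {p : Bool × Bump} (hp : Bump.WF p.2) (t : ℝ) :
    HasDerivAt (timeFactor p) ((dTime p).map fun r => (r.1 : ℝ) * timeFactor r.2 t).sum t := by
  obtain ⟨_ | _, g⟩ := p
  · simpa only [dTime, List.map_map, Function.comp_def, timeFactor_false] using
      hasDerivAt_bump g t
  · simpa only [dTime, List.map_map, Function.comp_def, timeFactor_true] using
      hasDerivAt_perBump hp t

/-! ### The product rule -/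

section

variable {β : Type} {d : β → List (ℚ × β)}

theorem hasDerivAt_dList (ev : β → ℝ → ℝ) (s : ℝ) (L : List β)
    (h : ∀ g ∈ L, HasDerivAt (ev g) ((d g).map fun r => (r.1 : ℝ) * ev r.2 s).sum s) :
    HasDerivAt (fun s => (L.map fun g => ev g s).prod)
      ((dList d L).map fun r => (r.1 : ℝ) * (r.2.map fun g => ev g s).prod).sum s := by
  induction L with
  | nil => simpa using hasDerivAt_const s (1 : ℝ)
  | cons g L ih =>
    have h1 := (h g List.mem_cons_self).mul (ih fun g' hg => h g' (List.mem_cons_of_mem _ hg))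
    simp only [List.map_cons, List.prod_cons]
    refine HasDerivAt.congr_deriv h1 (Eq.symm ?_)
    simp only [dList_cons, List.map_append, List.sum_append, List.map_map, Function.comp_def,
      List.map_cons, List.prod_cons]
    rw [← List.sum_map_mul_right, ← List.sum_map_mul_left]
    congr 2
    · refine List.map_congr_left fun r _ => ?_
      ring
    · refine List.map_congr_left fun r _ => ?_
      ring

theorem forall_dList {P : β → Prop} (hd : ∀ g, P g → ∀ r ∈ d g, P r.2) {L : List β}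
    (hL : ∀ g ∈ L, P g) : ∀ r ∈ dList d L, ∀ g ∈ r.2, P g := by
  induction L with
  | nil => simp
  | cons g L ih =>
    intro r hr
    rw [dList_cons, List.mem_append] at hr
    rcases hr with hr | hr
    · obtain ⟨r', h, rfl⟩ := List.mem_map.1 hr
      intro g' hg'
      rcases List.mem_cons.1 hg' with rfl | hg'
      · exact hd g (hL g List.mem_cons_self) r' h
      · exact hL g' (List.mem_cons_of_mem _ hg')
    · obtain ⟨r', h, rfl⟩ := List.mem_map.1 hr
      intro g' hg'
      rcases List.mem_cons.1 hg' with rfl | hg'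
      · exact hL _ List.mem_cons_self
      · exact ih (fun g hg => hL g (List.mem_cons_of_mem _ hg)) r' h g' hg'

theorem exists_dList {P : β → Prop} (hd : ∀ g, P g → ∀ r ∈ d g, P r.2) {L : List β}
    (hL : ∃ g ∈ L, P g) : ∀ r ∈ dList d L, ∃ g ∈ r.2, P g := by
  induction L with
  | nil => simp
  | cons g L ih =>
    intro r hr
    rw [dList_cons, List.mem_append] at hr
    obtain ⟨g0, hg0, hP⟩ := hL
    rcases hr with hr | hr
    · obtain ⟨r', h, rfl⟩ := List.mem_map.1 hr
      rcases List.mem_cons.1 hg0 with rfl | hg0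
      · exact ⟨r'.2, List.mem_cons_self, hd _ hP r' h⟩
      · exact ⟨g0, List.mem_cons_of_mem _ hg0, hP⟩
    · obtain ⟨r', h, rfl⟩ := List.mem_map.1 hr
      rcases List.mem_cons.1 hg0 with rfl | hg0
      · exact ⟨g0, List.mem_cons_self, hP⟩
      · obtain ⟨g1, h1, h2⟩ := ih ⟨g0, hg0, hP⟩ r' h
        exact ⟨g1, List.mem_cons_of_mem _ h1, h2⟩

theorem contDiff_listProd {E : Type*} [NormedAddCommGroup E] [NormedSpace ℝ E]
    (ev : β → E → ℝ) (L : List β) (h : ∀ g ∈ L, ContDiff ℝ ∞ (ev g)) :
    ContDiff ℝ ∞ fun z => (L.map fun g => ev g z).prod := by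
  induction L with
  | nil => simpa using contDiff_const
  | cons g L ih =>
    simp only [List.map_cons, List.prod_cons]
    exact (h g List.mem_cons_self).mul (ih fun g' hg => h g' (List.mem_cons_of_mem _ hg))

theorem contDiff_listSum {E : Type*} [NormedAddCommGroup E] [NormedSpace ℝ E]
    (ev : β → E → ℝ) (L : List β) (h : ∀ g ∈ L, ContDiff ℝ ∞ (ev g)) :
    ContDiff ℝ ∞ fun z => (L.map fun g => ev g z).sum := by
  induction L with
  | nil => simpa using contDiff_const
  | cons g L ih =>
    simp only [List.map_cons, List.sum_cons]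
    exact (h g List.mem_cons_self).add (ih fun g' hg => h g' (List.mem_cons_of_mem _ hg))

end

/-! ### Coefficients -/

variable {ν : ℝ}

theorem eval_scaleC (q : ℚ) (c : Coef) : Coef.eval ν (scaleC q c) = q * Coef.eval ν c := by
  simp only [Coef.eval, scaleC, Rat.cast_mul]
  ring

theorem eval_mulC (c e : Coef) : Coef.eval ν (mulC c e) = Coef.eval ν c * Coef.eval ν e := by
  simp only [Coef.eval, mulC, Rat.cast_mul, List.map_append, List.prod_append, pow_add,
    zpow_add₀ kappa_pos.ne']
  ring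

theorem wf_mulC {c e : Coef} (hc : Coef.WF c) (he : Coef.WF e) : Coef.WF (mulC c e) := by
  intro r hr
  rcases List.mem_append.1 hr with h | h
  exacts [hc r h, he r h]

/-! ### Terms -/

theorem eval_mulT (s τ : Term) (t : ℝ) (x : Fin 3 → ℝ) :
    Term.eval ν (mulT s τ) t x = Term.eval ν s t x * Term.eval ν τ t x := by
  simp only [Term.eval, mulT, eval_mulC, List.map_append, List.prod_append,
    Finset.prod_mul_distrib]
  ring

theorem wf_mulT {s τ : Term} (hs : Term.WF s) (hτ : Term.WF τ) : Term.WF (mulT s τ) := by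
  refine ⟨wf_mulC hs.1 hτ.1, fun p hp => ?_, fun i g hg => ?_⟩
  · rcases List.mem_append.1 hp with h | h
    exacts [hs.2.1 p h, hτ.2.1 p h]
  · rcases List.mem_append.1 hg with h | h
    exacts [hs.2.2 i g h, hτ.2.2 i g h]

theorem wf_dtT {τ : Term} (hτ : Term.WF τ) : ∀ s ∈ dtT τ, Term.WF s := by
  intro s hs
  obtain ⟨r, hr, rfl⟩ := List.mem_map.1 hs
  exact ⟨hτ.1, forall_dList (P := fun p : Bool × Bump => Bump.WF p.2)
    (fun _ hp => wf_dTime hp) hτ.2.1 r hr, hτ.2.2⟩

theorem wf_dxT (j : Fin 3) {τ : Term} (hτ : Term.WF τ) : ∀ s ∈ dxT j τ, Term.WF s := by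
  intro s hs
  obtain ⟨r, hr, rfl⟩ := List.mem_map.1 hs
  refine ⟨hτ.1, hτ.2.1, fun i g hg => ?_⟩
  by_cases h : i = j
  · simp only [h, if_true] at hg
    exact forall_dList (P := Bump.WF) (fun _ hp => wf_dBump hp) (hτ.2.2 j) r hr g hg
  · simp only [h, if_false] at hg
    exact hτ.2.2 i g hg

theorem contDiff_term {τ : Term} (hτ : Term.WF τ) :
    ContDiff ℝ ∞ fun z : ℝ × (Fin 3 → ℝ) => Term.eval ν τ z.1 z.2 := by
  unfold Term.eval
  refine (contDiff_const.mul (contDiff_listProd
    (fun p (z : ℝ × (Fin 3 → ℝ)) => timeFactor p z.1) _ fun p hp =>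
      (contDiff_timeFactor (hτ.2.1 p hp)).comp contDiff_fst)).mul
    (contDiff_prod fun i _ => contDiff_listProd
      (fun g (z : ℝ × (Fin 3 → ℝ)) => per (Bump.eval g) (z.2 i)) _ fun g hg =>
        (contDiff_perBump (hτ.2.2 i g hg)).comp ((contDiff_apply ℝ ℝ i).comp contDiff_snd))

theorem term_periodic (τ : Term) (t : ℝ) (x : Fin 3 → ℝ) (m : Fin 3 → ℤ) :
    Term.eval ν τ t (fun i => x i + m i) = Term.eval ν τ t x := by
  simp only [Term.eval, per_add_int]

theorem hasDerivAt_term_t {τ : Term} (hτ : Term.WF τ) (t : ℝ) (x : Fin 3 → ℝ) :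
    HasDerivAt (fun s => Term.eval ν τ s x) (evalL ν (dtT τ) t x) t := by
  have h := ((hasDerivAt_dList (d := dTime) timeFactor t τ.2.1 fun p hp =>
    hasDerivAt_timeFactor (hτ.2.1 p hp) t).const_mul (Coef.eval ν τ.1)).mul_const
      (∏ i, ((τ.2.2 i).map fun g => per (Bump.eval g) (x i)).prod)
  refine HasDerivAt.congr_deriv h (Eq.symm ?_)
  simp only [evalL, dtT, List.map_map, Function.comp_def, Term.eval, eval_scaleC]
  rw [← List.sum_map_mul_left, ← List.sum_map_mul_right]
  congr 1
  refine List.map_congr_left fun r _ => ?_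
  ring

theorem hasDerivAt_term_x (j : Fin 3) {τ : Term} (hτ : Term.WF τ) (t : ℝ) (x : Fin 3 → ℝ) :
    HasDerivAt (fun s => Term.eval ν τ t (update x j s)) (evalL ν (dxT j τ) t x) (x j) := by
  have h := ((hasDerivAt_dList (d := dBump) (fun g => per (Bump.eval g)) (x j) (τ.2.2 j)
    fun g hg => hasDerivAt_perBump (hτ.2.2 j g hg) (x j)).mul_const
      (∏ i ∈ Finset.univ.erase j, ((τ.2.2 i).map fun g => per (Bump.eval g) (x i)).prod)).const_mul
      (Coef.eval ν τ.1 * (τ.2.1.map fun p => timeFactor p t).prod)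
  refine HasDerivAt.congr_deriv (HasDerivAt.congr_of_eventuallyEq h
    (Eventually.of_forall fun s => ?_)) (Eq.symm ?_)
  · beta_reduce
    unfold Term.eval
    rw [← Finset.mul_prod_erase _ _ (Finset.mem_univ j), update_self]
    congr 2
    refine Finset.prod_congr rfl fun i hi => ?_
    rw [update_of_ne (Finset.ne_of_mem_erase hi)]
  · simp only [evalL, dxT, List.map_map, Function.comp_def, Term.eval, eval_scaleC]
    rw [← List.sum_map_mul_right, ← List.sum_map_mul_left]
    congr 1
    refine List.map_congr_left fun r _ => ?_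
    rw [← Finset.mul_prod_erase _ _ (Finset.mem_univ j), if_pos rfl,
      Finset.prod_congr rfl fun i hi => by rw [if_neg (Finset.ne_of_mem_erase hi)]]
    ring

/-! ### Lists of terms -/

/-- All terms of the list are well formed. -/
def WFL (A : List Term) : Prop := ∀ τ ∈ A, Term.WF τ

@[simp] theorem evalL_nil (t : ℝ) (x : Fin 3 → ℝ) : evalL ν [] t x = 0 := rfl

@[simp] theorem evalL_cons (τ : Term) (A : List Term) (t : ℝ) (x : Fin 3 → ℝ) :
    evalL ν (τ :: A) t x = Term.eval ν τ t x + evalL ν A t x := by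
  simp only [evalL, List.map_cons, List.sum_cons]

@[simp] theorem evalL_append (A B : List Term) (t : ℝ) (x : Fin 3 → ℝ) :
    evalL ν (A ++ B) t x = evalL ν A t x + evalL ν B t x := by
  simp only [evalL, List.map_append, List.sum_append]

theorem evalL_flatMap {α : Type} (L : List α) (F : α → List Term) (t : ℝ) (x : Fin 3 → ℝ) :
    evalL ν (L.flatMap F) t x = (L.map fun a => evalL ν (F a) t x).sum := by
  induction L with
  | nil => rfl
  | cons a L ih => simp only [List.flatMap_cons, evalL_append, ih, List.map_cons, List.sum_cons]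

theorem evalL_map {α : Type} (L : List α) (F : α → Term) (t : ℝ) (x : Fin 3 → ℝ) :
    evalL ν (L.map F) t x = (L.map fun a => Term.eval ν (F a) t x).sum := by
  simp only [evalL, List.map_map, Function.comp_def]

theorem evalL_mulL (A B : List Term) (t : ℝ) (x : Fin 3 → ℝ) :
    evalL ν (mulL A B) t x = evalL ν A t x * evalL ν B t x := by
  unfold mulL
  rw [evalL_flatMap]
  simp only [evalL_map, eval_mulT, List.sum_map_mul_left]
  simp only [evalL, List.sum_map_mul_right]

theorem evalL_scaleL (q : ℚ) (A : List Term) (t : ℝ) (x : Fin 3 → ℝ) :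
    evalL ν (scaleL q A) t x = q * evalL ν A t x := by
  unfold scaleL
  rw [evalL_map, evalL, ← List.sum_map_mul_left]
  congr 1
  refine List.map_congr_left fun τ _ => ?_
  simp only [Term.eval, eval_scaleC]
  ring

theorem evalL_negNuL (A : List Term) (t : ℝ) (x : Fin 3 → ℝ) :
    evalL ν (negNuL A) t x = -ν * evalL ν A t x := by
  unfold negNuL
  rw [evalL_map, evalL, ← List.sum_map_mul_left]
  congr 1
  refine List.map_congr_left fun τ _ => ?_
  simp only [Term.eval, Coef.eval, Rat.cast_neg, pow_succ]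
  ring

theorem wfl_nil : WFL [] := fun _ h => absurd h List.not_mem_nil

theorem WFL.cons {τ : Term} {A : List Term} (hτ : Term.WF τ) (hA : WFL A) : WFL (τ :: A) := by
  intro s hs
  rcases List.mem_cons.1 hs with rfl | h
  exacts [hτ, hA s h]

theorem WFL.append {A B : List Term} (hA : WFL A) (hB : WFL B) : WFL (A ++ B) := by
  intro τ h
  rcases List.mem_append.1 h with h | h
  exacts [hA τ h, hB τ h]

theorem wfl_flatMap {α : Type} {L : List α} {F : α → List Term} (h : ∀ a ∈ L, WFL (F a)) :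
    WFL (L.flatMap F) := by
  intro τ hτ
  obtain ⟨a, ha, h2⟩ := List.mem_flatMap.1 hτ
  exact h a ha τ h2

theorem wfl_map {α : Type} {L : List α} {F : α → Term} (h : ∀ a ∈ L, Term.WF (F a)) :
    WFL (L.map F) := by
  intro τ hτ
  obtain ⟨a, ha, rfl⟩ := List.mem_map.1 hτ
  exact h a ha

theorem WFL.mulL {A B : List Term} (hA : WFL A) (hB : WFL B) : WFL (mulL A B) :=
  wfl_flatMap fun s hs => wfl_map fun τ hτ => wf_mulT (hA s hs) (hB τ hτ)

theorem WFL.scaleL (q : ℚ) {A : List Term} (hA : WFL A) : WFL (scaleL q A) :=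
  wfl_map fun τ hτ => hA τ hτ

theorem WFL.negNuL {A : List Term} (hA : WFL A) : WFL (negNuL A) :=
  wfl_map fun τ hτ => hA τ hτ

theorem WFL.dtL {A : List Term} (hA : WFL A) : WFL (dtL A) :=
  wfl_flatMap fun τ hτ => wf_dtT (hA τ hτ)

theorem WFL.dxL (j : Fin 3) {A : List Term} (hA : WFL A) : WFL (dxL j A) :=
  wfl_flatMap fun τ hτ => wf_dxT j (hA τ hτ)

theorem wfl_nsL {U : Fin 3 → List Term} (hU : ∀ i, WFL (U i)) (i : Fin 3) : WFL (nsL U i) :=
  ((hU i).dtL.append ((((hU 0).mulL ((hU i).dxL 0)).append ((hU 1).mulL ((hU i).dxL 1))).append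
    ((hU 2).mulL ((hU i).dxL 2)))).append
    (((((hU i).dxL 0).dxL 0).append (((hU i).dxL 1).dxL 1)).append (((hU i).dxL 2).dxL 2)).negNuL

theorem contDiff_evalL {A : List Term} (hA : WFL A) :
    ContDiff ℝ ∞ fun z : ℝ × (Fin 3 → ℝ) => evalL ν A z.1 z.2 :=
  contDiff_listSum (fun τ (z : ℝ × (Fin 3 → ℝ)) => Term.eval ν τ z.1 z.2) A fun τ hτ =>
    contDiff_term (hA τ hτ)

theorem evalL_periodic (A : List Term) (t : ℝ) (x : Fin 3 → ℝ) (m : Fin 3 → ℤ) :
    evalL ν A t (fun i => x i + m i) = evalL ν A t x := by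
  simp only [evalL, term_periodic]

theorem evalL_add_single (A : List Term) (t : ℝ) (x : Fin 3 → ℝ) (j : Fin 3) :
    evalL ν A t (x + Pi.single j 1) = evalL ν A t x := by
  rw [← evalL_periodic A t x (Pi.single j 1)]
  congr 1
  funext i
  by_cases h : i = j
  · subst h; simp
  · simp [Pi.single_eq_of_ne h]

theorem hasDerivAt_evalL_t {A : List Term} (hA : WFL A) (t : ℝ) (x : Fin 3 → ℝ) :
    HasDerivAt (fun s => evalL ν A s x) (evalL ν (dtL A) t x) t := by
  induction A with
  | nil => simpa [dtL] using hasDerivAt_const t (0 : ℝ)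
  | cons τ A ih =>
    simp only [dtL, List.flatMap_cons, evalL_cons, evalL_append]
    exact (hasDerivAt_term_t (hA τ List.mem_cons_self) t x).add
      (ih fun s hs => hA s (List.mem_cons_of_mem _ hs))

theorem hasDerivAt_evalL_x (j : Fin 3) {A : List Term} (hA : WFL A) (t : ℝ) (x : Fin 3 → ℝ) :
    HasDerivAt (fun s => evalL ν A t (update x j s)) (evalL ν (dxL j A) t x) (x j) := by
  induction A with
  | nil => simpa [dxL] using hasDerivAt_const (x j) (0 : ℝ)
  | cons τ A ih =>
    simp only [dxL, List.flatMap_cons, evalL_cons, evalL_append]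
    exact (hasDerivAt_term_x j (hA τ List.mem_cons_self) t x).add
      (ih fun s hs => hA s (List.mem_cons_of_mem _ hs))

theorem evalL_nsL (U : Fin 3 → List Term) (i : Fin 3) (t : ℝ) (x : Fin 3 → ℝ) :
    evalL ν (nsL U i) t x = evalL ν (dtL (U i)) t x +
      ∑ j, evalL ν (U j) t x * evalL ν (dxL j (U i)) t x -
      ν * ∑ j, evalL ν (dxL j (dxL j (U i))) t x := by
  simp only [nsL, evalL_append, evalL_mulL, evalL_negNuL, Fin.sum_univ_three]
  ring

end Vale.Agent.P113B
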