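import Vale.Agent.P113B.Ana0

open MeasureTheory Set Filter Topology
open scoped ContDiff

noncomputable section

namespace Vale.Agent.P113B

abbrev Bump : Type := ℕ × (ℕ ⊕ ℚ) × ℚ × ℚ

def Bump.eval (g : Bump) (s : ℝ) : ℝ :=
  s ^ g.1 * Sum.elim (fun j : ℕ => iteratedDeriv j rho) (fun l : ℚ => piL l) g.2.1
    ((g.2.2.1 : ℝ) * s - (g.2.2.2 : ℝ))

def Bump.WF (g : Bump) : Prop := g.2.2.1 ≠ 0 ∧ ∀ l : ℚ, g.2.1 = Sum.inr l → 0 < l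

abbrev Coef : Type := ℚ × ℕ × ℤ × List ℚ

def Coef.eval (ν : ℝ) (c : Coef) : ℝ :=
  (c.1 : ℝ) * ν ^ c.2.1 * kappa ^ c.2.2.1 * (c.2.2.2.map fun r : ℚ => Real.log r).prod

def Coef.WF (c : Coef) : Prop := ∀ r ∈ c.2.2.2, 0 < r

abbrev Term : Type := Coef × List (Bool × Bump) × (Fin 3 → List Bump)

def timeFactor (p : Bool × Bump) (t : ℝ) : ℝ :=
  if p.1 then per (Bump.eval p.2) t else Bump.eval p.2 t

def Term.eval (ν : ℝ) (τ : Term) (t : ℝ) (x : Fin 3 → ℝ) : ℝ :=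
  Coef.eval ν τ.1 * (τ.2.1.map fun p => timeFactor p t).prod *
    ∏ i, ((τ.2.2 i).map fun g => per (Bump.eval g) (x i)).prod

def Term.WF (τ : Term) : Prop :=
  Coef.WF τ.1 ∧ (∀ p ∈ τ.2.1, Bump.WF p.2) ∧ ∀ i, ∀ g ∈ τ.2.2 i, Bump.WF g

def Term.periodic (τ : Term) : Bool := τ.2.1.all fun p => p.1

def evalL (ν : ℝ) (L : List Term) (t : ℝ) (x : Fin 3 → ℝ) : ℝ :=
  (L.map fun τ => Term.eval ν τ t x).sum

end Vale.Agent.P113B
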