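import Vale.Agent.P113B.Flow
import Vale.Agent.P113.Final2

/-! P113: the last block and the final statement. -/

open Set

namespace Vale.Agent.P113

open Vale.Agent.P113E

/-- Block E'. -/
theorem driveStmt : DriveStmt := fun rules halts hG =>
  ⟨Flow.UU rules halts, Flow.adm_UU hG, Flow.div_UU hG,
    fun i _ ht x => Flow.UU_idle 0 (by simpa [slot] using ht) i x,
    Flow.spd, Flow.clk, Flow.drives hG⟩

/-- The final statement. -/
theorem final2 : FinalStmt2 := final2_of driveStmt

end Vale.Agent.P113
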