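import Vale.Agent.P113B.Calc

/-! P113: periodic and non periodic terms under the symbolic operations. -/

open MeasureTheory Set Filter Topology Function
open scoped ContDiff

noncomputable section

namespace Vale.Agent.P113

variable {ν : ℝ}

theorem periodic_iff {τ : Term} : Term.periodic τ = true ↔ ∀ p ∈ τ.2.1, p.1 = true := by
  simp [Term.periodic]

theorem periodic_false_iff {τ : Term} : Term.periodic τ = false ↔ ∃ p ∈ τ.2.1, p.1 = false := by
  rw [← Bool.not_eq_true, periodic_iff]
  simp only [not_forall, Bool.not_eq_true, exists_prop]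

theorem periodic_mulT (s τ : Term) :
    Term.periodic (mulT s τ) = (Term.periodic s && Term.periodic τ) := by
  simp only [Term.periodic, mulT, List.all_append]

theorem flag_dTime (p : Bool × Bump) : ∀ r ∈ dTime p, r.2.1 = p.1 := by
  intro r hr
  obtain ⟨r', _, rfl⟩ := List.mem_map.1 hr
  rfl

theorem periodic_dtT (τ : Term) : ∀ s ∈ dtT τ, Term.periodic s = Term.periodic τ := by
  intro s hs
  obtain ⟨r, hr, rfl⟩ := List.mem_map.1 hs
  cases h : Term.periodic τ
  · exact periodic_false_iff.2 (exists_dList (P := fun p : Bool × Bump => p.1 = false)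
      (fun p hp r hr => (flag_dTime p r hr).trans hp) (periodic_false_iff.1 h) r hr)
  · exact periodic_iff.2 (forall_dList (P := fun p : Bool × Bump => p.1 = true)
      (fun p hp r hr => (flag_dTime p r hr).trans hp) (periodic_iff.1 h) r hr)

theorem periodic_dxT (j : Fin 3) (τ : Term) :
    ∀ s ∈ dxT j τ, Term.periodic s = Term.periodic τ := by
  intro s hs
  obtain ⟨r, _, rfl⟩ := List.mem_map.1 hs
  rfl

theorem filter_flatMap_of {α β : Type} (p : α → Bool) (q : β → Bool) (F : α → List β)
    (h : ∀ a, ∀ b ∈ F a, q b = p a) (A : List α) :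
    (A.flatMap F).filter q = (A.filter p).flatMap F := by
  induction A with
  | nil => rfl
  | cons a A ih =>
    rw [List.flatMap_cons, List.filter_append, ih, List.filter_cons]
    cases hp : p a
    · rw [List.filter_eq_nil_iff.2 fun b hb => by simp [h a b hb, hp]]
      simp
    · rw [List.filter_eq_self.2 fun b hb => (h a b hb).trans hp]
      simp

theorem filter_dtL (A : List Term) :
    (dtL A).filter Term.periodic = dtL (A.filter Term.periodic) :=
  filter_flatMap_of _ _ _ periodic_dtT A

theorem filter_dxL (j : Fin 3) (A : List Term) :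
    (dxL j A).filter Term.periodic = dxL j (A.filter Term.periodic) :=
  filter_flatMap_of _ _ _ (periodic_dxT j) A

theorem filter_negNuL (A : List Term) :
    (negNuL A).filter Term.periodic = negNuL (A.filter Term.periodic) := by
  unfold negNuL
  rw [List.filter_map]
  rfl

theorem filter_scaleL (q : ℚ) (A : List Term) :
    (scaleL q A).filter Term.periodic = scaleL q (A.filter Term.periodic) := by
  unfold scaleL
  rw [List.filter_map]
  rfl

theorem filter_mulL (A B : List Term) :
    (mulL A B).filter Term.periodic = mulL (A.filter Term.periodic) (B.filter Term.periodic) := by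
  unfold mulL
  induction A with
  | nil => rfl
  | cons s A ih =>
    rw [List.flatMap_cons, List.filter_append, ih, List.filter_cons, List.filter_map]
    cases hp : Term.periodic s
    · rw [List.filter_eq_nil_iff.2 fun b _ => by simp [periodic_mulT, hp]]
      simp
    · have : (Term.periodic ∘ fun t => mulT s t) = Term.periodic := by
        funext t
        simp [periodic_mulT, hp]
      rw [this]
      simp

/-- The periodic terms of the force are the force of the periodic terms. -/
theorem filter_nsL (U : Fin 3 → List Term) (i : Fin 3) :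
    (nsL U i).filter Term.periodic = nsL (fun j => (U j).filter Term.periodic) i := by
  simp only [nsL, List.filter_append, filter_dtL, filter_mulL, filter_dxL, filter_negNuL]

/-- All terms are periodic. -/
def AllPer (A : List Term) : Prop := ∀ τ ∈ A, Term.periodic τ = true

/-- No term is periodic. -/
def NoPer (A : List Term) : Prop := ∀ τ ∈ A, Term.periodic τ = false

theorem filter_append_of {A B : List Term} (hA : AllPer A) (hB : NoPer B) :
    (A ++ B).filter Term.periodic = A := by
  rw [List.filter_append, List.filter_eq_self.2 hA,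
    List.filter_eq_nil_iff.2 fun b hb => by simp [hB b hb], List.append_nil]

theorem filter_nsL_append {U V : Fin 3 → List Term} (hU : ∀ j, AllPer (U j))
    (hV : ∀ j, NoPer (V j)) (i : Fin 3) :
    (nsL (fun j => U j ++ V j) i).filter Term.periodic = nsL U i := by
  rw [filter_nsL]
  simp only [filter_append_of (hU _) (hV _)]

theorem allPer_nsL {U : Fin 3 → List Term} (hU : ∀ j, AllPer (U j)) (i : Fin 3) :
    AllPer (nsL U i) := by
  refine List.filter_eq_self.1 ?_
  rw [filter_nsL]
  simp only [List.filter_eq_self.2 (hU _)]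

/-- Periodic terms have period one in time. -/
theorem term_periodic_t {τ : Term} (h : Term.periodic τ = true) (t : ℝ) (n : ℤ)
    (x : Fin 3 → ℝ) : Term.eval ν τ (t + n) x = Term.eval ν τ t x := by
  rw [Term.eval_def, Term.eval_def]
  congr 3
  refine List.map_congr_left fun p hp => ?_
  simp only [timeFactor, periodic_iff.1 h p hp, if_true, per_add_int]

theorem evalL_periodic_t {A : List Term} (h : AllPer A) (t : ℝ) (n : ℤ) (x : Fin 3 → ℝ) :
    evalL ν A (t + n) x = evalL ν A t x := by
  unfold evalL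
  congr 1
  exact List.map_congr_left fun τ hτ => term_periodic_t (h τ hτ) t n x

/-! ### Terms which vanish after a given time -/

/-- A syntactic condition which forces the bump and all bumps derived from it to vanish on
`[T, ∞)`. -/
def ZeroFrom (T : ℚ) (g : Bump) : Prop :=
  0 < g.2.2.1 ∧ g.2.2.2 + 1 ≤ g.2.2.1 * T ∧
    ∀ l : ℚ, g.2.1 = Sum.inr l → 0 ≤ l ∧ g.2.2.2 + l + 1 ≤ g.2.2.1 * T

theorem zeroFrom_inl {T : ℚ} {k j : ℕ} {a b : ℚ} (ha : 0 < a) (h : b + 1 ≤ a * T) :
    ZeroFrom T (k, Sum.inl j, a, b) := ⟨ha, h, fun _ h => by simp at h⟩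

theorem zeroFrom_inr {T : ℚ} {k : ℕ} {l a b : ℚ} (ha : 0 < a) (hl : 0 ≤ l)
    (h : b + l + 1 ≤ a * T) : ZeroFrom T (k, Sum.inr l, a, b) :=
  ⟨ha, by change b + 1 ≤ a * T; linarith, fun _ h' => by
    have : l = _ := Sum.inr.inj h'
    exact this ▸ ⟨hl, h⟩⟩

theorem ZeroFrom.eval {T : ℚ} {g : Bump} (h : ZeroFrom T g) {t : ℝ} (ht : (T : ℝ) ≤ t) :
    Bump.eval g t = 0 := by
  obtain ⟨k, j | l, a, b⟩ := g
  · have ha : (0 : ℝ) < a := by exact_mod_cast h.1
    have h1 : (b : ℝ) + 1 ≤ a * T := by exact_mod_cast h.2.1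
    rw [Bump.eval_inl, iter_zero j (le_abs.2 (Or.inl (by nlinarith))), mul_zero]
  · have ha : (0 : ℝ) < a := by exact_mod_cast h.1
    have hl : (0 : ℝ) ≤ l := by exact_mod_cast (h.2.2 l rfl).1
    have h1 : (b : ℝ) + l + 1 ≤ a * T := by exact_mod_cast (h.2.2 l rfl).2
    rw [Bump.eval_inr, piL_zero_right hl (by nlinarith), mul_zero]

theorem ZeroFrom.dBump {T : ℚ} {g : Bump} (h : ZeroFrom T g) : ∀ r ∈ dBump g, ZeroFrom T r.2 := by
  obtain ⟨k, j | l, a, b⟩ := g
  · intro r hr
    simp only [P113.dBump, Sum.elim_inl, List.mem_cons, List.not_mem_nil, or_false] at hr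
    rcases hr with rfl | rfl
    · exact zeroFrom_inl h.1 h.2.1
    · exact zeroFrom_inl h.1 h.2.1
  · intro r hr
    simp only [P113.dBump, Sum.elim_inr, List.mem_cons, List.not_mem_nil, or_false] at hr
    rcases hr with rfl | rfl | rfl
    · exact zeroFrom_inr h.1 (h.2.2 l rfl).1 (h.2.2 l rfl).2
    · exact zeroFrom_inl h.1 h.2.1
    · exact zeroFrom_inl h.1 (h.2.2 l rfl).2

/-- The term has a time factor, not periodized, which vanishes on `[T, ∞)`. -/
def Dies (T : ℚ) (τ : Term) : Prop := ∃ p ∈ τ.2.1, p.1 = false ∧ ZeroFrom T p.2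

theorem Dies.eval {T : ℚ} {τ : Term} (h : Dies T τ) {t : ℝ} (ht : (T : ℝ) ≤ t) (x : Fin 3 → ℝ) :
    Term.eval ν τ t x = 0 := by
  obtain ⟨p, hp, h1, h2⟩ := h
  rw [Term.eval_def]
  have : (τ.2.1.map fun p => timeFactor p t).prod = 0 := by
    refine List.prod_eq_zero (List.mem_map.2 ⟨p, hp, ?_⟩)
    simp only [timeFactor, h1, Bool.false_eq_true, if_false]
    exact h2.eval ht
  rw [this, mul_zero, zero_mul]

theorem Dies.not_periodic {T : ℚ} {τ : Term} (h : Dies T τ) : Term.periodic τ = false := by
  obtain ⟨p, hp, h1, _⟩ := h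
  exact periodic_false_iff.2 ⟨p, hp, h1⟩

/-- Every term is periodic or vanishes on `[T, ∞)` for a syntactic reason. -/
def Settles (T : ℚ) (A : List Term) : Prop := ∀ τ ∈ A, Term.periodic τ = true ∨ Dies T τ

theorem AllPer.settles {A : List Term} (h : AllPer A) (T : ℚ) : Settles T A :=
  fun τ hτ => Or.inl (h τ hτ)

theorem Settles.eval {T : ℚ} {A : List Term} (h : Settles T A) {τ : Term} (hτ : τ ∈ A)
    (hp : Term.periodic τ = false) {t : ℝ} (ht : (T : ℝ) ≤ t) (x : Fin 3 → ℝ) :
    Term.eval ν τ t x = 0 := by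
  rcases h τ hτ with h | h
  · rw [hp] at h; exact absurd h Bool.false_ne_true
  · exact h.eval ht x

theorem Settles.append {T : ℚ} {A B : List Term} (hA : Settles T A) (hB : Settles T B) :
    Settles T (A ++ B) := by
  intro τ h
  rcases List.mem_append.1 h with h | h
  exacts [hA τ h, hB τ h]

theorem Settles.mulL {T : ℚ} {A B : List Term} (hA : Settles T A) (hB : Settles T B) :
    Settles T (mulL A B) := by
  intro τ h
  obtain ⟨a, ha, h2⟩ := List.mem_flatMap.1 h
  obtain ⟨b, hb, rfl⟩ := List.mem_map.1 h2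
  rcases hA a ha with h3 | ⟨p, hp, h3⟩
  · rcases hB b hb with h4 | ⟨p, hp, h4⟩
    · exact Or.inl (by rw [periodic_mulT, h3, h4]; rfl)
    · exact Or.inr ⟨p, List.mem_append_right _ hp, h4⟩
  · exact Or.inr ⟨p, List.mem_append_left _ hp, h3⟩

theorem Settles.negNuL {T : ℚ} {A : List Term} (hA : Settles T A) : Settles T (negNuL A) := by
  intro τ h
  obtain ⟨a, ha, rfl⟩ := List.mem_map.1 h
  exact hA a ha

theorem Settles.scaleL {T : ℚ} (q : ℚ) {A : List Term} (hA : Settles T A) :
    Settles T (scaleL q A) := by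
  intro τ h
  obtain ⟨a, ha, rfl⟩ := List.mem_map.1 h
  exact hA a ha

theorem Settles.dtL {T : ℚ} {A : List Term} (hA : Settles T A) : Settles T (dtL A) := by
  intro τ h
  obtain ⟨a, ha, h2⟩ := List.mem_flatMap.1 h
  rcases hA a ha with h3 | h3
  · exact Or.inl ((periodic_dtT a τ h2).trans h3)
  · obtain ⟨r, hr, rfl⟩ := List.mem_map.1 h2
    refine Or.inr (exists_dList (P := fun p : Bool × Bump => p.1 = false ∧ ZeroFrom T p.2)
      (fun p hp r hr => ?_) h3 r hr)
    obtain ⟨r', h', rfl⟩ := List.mem_map.1 hr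
    exact ⟨hp.1, hp.2.dBump r' h'⟩

theorem Settles.dxL {T : ℚ} (j : Fin 3) {A : List Term} (hA : Settles T A) :
    Settles T (dxL j A) := by
  intro τ h
  obtain ⟨a, ha, h2⟩ := List.mem_flatMap.1 h
  obtain ⟨r, _, rfl⟩ := List.mem_map.1 h2
  exact hA a ha

theorem settles_nsL {T : ℚ} {U : Fin 3 → List Term} (hU : ∀ i, Settles T (U i)) (i : Fin 3) :
    Settles T (nsL U i) :=
  ((hU i).dtL.append ((((hU 0).mulL ((hU i).dxL 0)).append ((hU 1).mulL ((hU i).dxL 1))).append
    ((hU 2).mulL ((hU i).dxL 2)))).append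
    (((((hU i).dxL 0).dxL 0).append (((hU i).dxL 1).dxL 1)).append (((hU i).dxL 2).dxL 2)).negNuL

end Vale.Agent.P113
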