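import Vale.Agent.P113B.Adm
import Vale.Agent.P113E.Traj

/-! P113: the periodic field which carries out a list of rules (block E). -/

open MeasureTheory Set Filter Topology Function
open scoped ContDiff

noncomputable section

namespace Vale.Agent.P113.Flow

open Vale.Agent.P113E

/-! ### Functions of one space variable -/

/-- The function of one variable is admissible in each space variable. -/
def AdmX (F : ℝ → ℝ) : Prop := ∀ j : Fin 3, (fun _ x => F (x j) : Fn) ∈ Adm

theorem AdmX.differentiable {F : ℝ → ℝ} (h : AdmX F) : Differentiable ℝ F := by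
  have h1 := ((admCalc _ (h 0)).1.comp (f := fun s : ℝ => ((0 : ℝ), fun _ : Fin 3 => s))
    (by fun_prop)).differentiable (by simp)
  exact h1

theorem AdmX.deriv {F : ℝ → ℝ} (h : AdmX F) : AdmX (deriv F) := by
  intro j
  have h1 := (admCalc _ (h j)).2.2.2.2 j
  have h2 : dx j (fun _ x => F (x j)) = fun _ x => _root_.deriv F (x j) := by
    funext t x
    simp only [dx, update_self]
  rwa [h2] at h1

/-- The bump `y ^ k * π₄ (2 y / d - (2 a / d - 1))`. -/
def plB (k : ℕ) (s : Seg) : Bump := (k, Sum.inr 4, 2 / s.2, 2 * s.1 / s.2 - 1)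

theorem plB_valid (k : ℕ) {s : Seg} (hs : 0 < s.2) : (plB k s).Valid :=
  ⟨(div_pos two_pos hs).ne', by norm_num⟩

/-- The profile of the plateau, before periodization. -/
def prof (s : Seg) (y : ℝ) : ℝ := kappa⁻¹ * piL 4 (2 * (y - s.1) / s.2 + 1)

theorem plB_eval (k : ℕ) (s : Seg) (y : ℝ) :
    (plB k s).eval y = y ^ k * piL 4 (2 * (y - s.1) / s.2 + 1) := by
  rw [plB, Bump.eval_inr]
  push_cast
  congr 2
  ring

theorem piL_out {s : Seg} (hs : 0 < s.2) {y : ℝ}
    (h : y ≤ (s.1 : ℝ) - s.2 ∨ (s.1 : ℝ) + 2 * s.2 ≤ y) :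
    2 * (y - s.1) / s.2 + 1 ≤ -1 ∨ 5 ≤ 2 * (y - s.1) / s.2 + 1 := by
  have hd : (0 : ℝ) < s.2 := by exact_mod_cast hs
  rcases h with h | h
  · left
    have : 2 * (y - s.1) / s.2 ≤ -2 := by rw [div_le_iff₀ hd]; linarith
    linarith
  · right
    have : 4 ≤ 2 * (y - s.1) / s.2 := by rw [le_div_iff₀ hd]; linarith
    linarith

theorem piL_four_zero {v : ℝ} (h : v ≤ -1 ∨ 5 ≤ v) : piL 4 v = 0 := by
  rcases h with h | h
  · exact piL_zero_left (by norm_num) h
  · exact piL_zero_right (by norm_num) (by linarith)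

theorem prof_zero {s : Seg} (hs : 0 < s.2) {y : ℝ}
    (h : y ≤ (s.1 : ℝ) - s.2 ∨ (s.1 : ℝ) + 2 * s.2 ≤ y) : prof s y = 0 := by
  rw [prof, piL_four_zero (piL_out hs h), mul_zero]

theorem prof_one {s : Seg} (hs : 0 < s.2) {y : ℝ} (h1 : (s.1 : ℝ) ≤ y) (h2 : y ≤ s.1 + s.2) :
    prof s y = 1 := by
  have hd : (0 : ℝ) < s.2 := by exact_mod_cast hs
  have h3 : 0 ≤ 2 * (y - s.1) / s.2 := div_nonneg (by linarith) hd.le
  have h4 : 2 * (y - s.1) / s.2 ≤ 2 := by rw [div_le_iff₀ hd]; linarith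
  rw [prof, piL_kappa (by linarith) (by linarith), inv_mul_cancel₀ kappa_pos.ne']

theorem hasDerivAt_prof (s : Seg) (y : ℝ) : HasDerivAt (prof s)
    (kappa⁻¹ * ((rho (2 * (y - s.1) / s.2 + 1) - rho (2 * (y - s.1) / s.2 + 1 - 4)) *
      (2 / s.2))) y := by
  have h1 : HasDerivAt (fun y : ℝ => 2 * (y - s.1) / s.2 + 1) (2 / s.2) y := by
    simpa using ((((hasDerivAt_id y).sub_const (s.1 : ℝ)).const_mul 2).div_const
      (s.2 : ℝ)).add_const 1
  exact ((hasDerivAt_piL 4 _).comp y h1).const_mul kappa⁻¹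

theorem hasDerivAt_prof_zero {s : Seg} (hs : 0 < s.2) {y : ℝ}
    (h : y ≤ (s.1 : ℝ) - s.2 ∨ (s.1 : ℝ) + 2 * s.2 ≤ y) : HasDerivAt (prof s) 0 y := by
  refine (hasDerivAt_prof s y).congr_deriv ?_
  rcases piL_out hs h with h | h
  · rw [rho_zero (le_abs'.2 (Or.inl h)), rho_zero (le_abs'.2 (Or.inl (by linarith)))]
    simp
  · rw [rho_zero (le_abs.2 (Or.inl (by linarith))), rho_zero (le_abs.2 (Or.inl (by linarith)))]
    simp

/-- The segment is small. -/
def Small (s : Seg) : Prop := 0 ≤ s.1 ∧ 0 < s.2 ∧ s.1 + s.2 ≤ 1 / 4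

theorem small_of_ok {s : Seg} (h : SegOk s) : Small s := ⟨h.1, h.2.1, by linarith [h.2.2]⟩

theorem small_quarter : Small (0, 1 / 4) := by
  refine ⟨le_rfl, ?_, ?_⟩ <;> norm_num

theorem per_plB (k : ℕ) {s : Seg} (hs : Small s) {y : ℝ} (hy : y ∈ Ioo (-1 / 2 : ℝ) (3 / 4)) :
    kappa⁻¹ * per (plB k s).eval y = y ^ k * prof s y := by
  have h1 : (0 : ℝ) ≤ s.1 := by exact_mod_cast hs.1
  have h2 : (0 : ℝ) < s.2 := by exact_mod_cast hs.2.1
  have h3 : (s.1 : ℝ) + s.2 ≤ 1 / 4 := by
    have := (Rat.cast_le (K := ℝ)).2 hs.2.2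
    push_cast at this
    exact this
  rw [per_eq_self (lo := -1 / 4) (hi := 1 / 2) (fun v hv => ?_) (fun v hv => ?_)
    (by linarith [hy.1]) (by linarith [hy.2]), plB_eval, prof]
  · ring
  · rw [plB_eval, piL_four_zero (piL_out hs.2.1 (Or.inl (by linarith))), mul_zero]
  · rw [plB_eval, piL_four_zero (piL_out hs.2.1 (Or.inr (by linarith))), mul_zero]

/-- The periodic plateau function of a segment. -/
def plat (s : Seg) (y : ℝ) : ℝ := kappa⁻¹ * per (plB 0 s).eval y

/-- The periodic plateau function of a segment, times `y - c`. -/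
def lin (c : ℚ) (s : Seg) (y : ℝ) : ℝ := kappa⁻¹ * per (plB 1 s).eval y - c * plat s y

theorem admX_plat {s : Seg} (hs : 0 < s.2) : AdmX (plat s) := fun j =>
  adm_mul adm_kinv (adm_per_x (plB_valid 0 hs) j)

theorem admX_lin (c : ℚ) {s : Seg} (hs : 0 < s.2) : AdmX (lin c s) := fun j =>
  adm_sub (adm_mul adm_kinv (adm_per_x (plB_valid 1 hs) j)) (adm_mul (adm_rat c) (admX_plat hs j))

theorem plat_eq {s : Seg} (hs : Small s) {y : ℝ} (hy : y ∈ Ioo (-1 / 2 : ℝ) (3 / 4)) :
    plat s y = prof s y := by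
  rw [plat, per_plB 0 hs hy, pow_zero, one_mul]

theorem lin_eq (c : ℚ) {s : Seg} (hs : Small s) {y : ℝ} (hy : y ∈ Ioo (-1 / 2 : ℝ) (3 / 4)) :
    lin c s y = (y - c) * prof s y := by
  rw [lin, per_plB 1 hs hy, plat_eq hs hy]
  ring

theorem deriv_lin (c : ℚ) {s : Seg} (hs : Small s) {y : ℝ} (hy : y ∈ Ioo (-1 / 2 : ℝ) (3 / 4))
    {v : ℝ} (hv : HasDerivAt (prof s) v y) : deriv (lin c s) y = prof s y + (y - c) * v := by
  have h1 : lin c s =ᶠ[𝓝 y] fun y => (y - c) * prof s y := by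
    filter_upwards [isOpen_Ioo.mem_nhds hy] with z hz using lin_eq c hs hz
  rw [h1.deriv_eq]
  have h2 := (((hasDerivAt_id y).sub_const (c : ℝ)).mul hv).deriv
  simp only [id, one_mul] at h2
  exact h2

theorem inSeg_real {s : Seg} {y : ℚ} (h : InSeg s y) : (s.1 : ℝ) ≤ y ∧ (y : ℝ) ≤ s.1 + s.2 :=
  ⟨by exact_mod_cast h.1, by exact_mod_cast h.2⟩

theorem inSeg_window {s : Seg} (hs : SegOk s) {y : ℚ} (h : InSeg s y) :
    (y : ℝ) ∈ Ioo (-1 / 2 : ℝ) (3 / 4) := by
  have := inSeg_mem hs h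
  exact ⟨by linarith [this.1], by linarith [this.2]⟩

theorem sep_real {s s' : Seg} (h : SegSep s s') {y : ℚ} (hy : InSeg s y) :
    (y : ℝ) ≤ (s'.1 : ℝ) - s'.2 ∨ (s'.1 : ℝ) + 2 * s'.2 ≤ y := by
  rcases h with h | h
  · left; exact_mod_cast hy.2.trans h
  · right; exact_mod_cast h.trans hy.1

theorem plat_in {s : Seg} (hs : SegOk s) {y : ℚ} (h : InSeg s y) : plat s y = 1 := by
  rw [plat_eq (small_of_ok hs) (inSeg_window hs h),
    prof_one hs.2.1 (inSeg_real h).1 (inSeg_real h).2]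

theorem plat_out {s s' : Seg} (hs : SegOk s) (hs' : SegOk s') (hsep : SegSep s s') {y : ℚ}
    (h : InSeg s y) : plat s' y = 0 := by
  rw [plat_eq (small_of_ok hs') (inSeg_window hs h), prof_zero hs'.2.1 (sep_real hsep h)]

theorem inSeg_left {s : Seg} (hs : SegOk s) : InSeg s s.1 := ⟨le_rfl, by linarith [hs.2.1]⟩

theorem lin_left {s : Seg} (hs : SegOk s) : lin s.1 s s.1 = 0 := by
  rw [lin_eq _ (small_of_ok hs) (inSeg_window hs (inSeg_left hs)), sub_self, zero_mul]

theorem deriv_lin_left {s : Seg} (hs : SegOk s) : deriv (lin s.1 s) s.1 = 1 := by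
  rw [deriv_lin _ (small_of_ok hs) (inSeg_window hs (inSeg_left hs)) (hasDerivAt_prof s _),
    sub_self, zero_mul, add_zero,
    prof_one hs.2.1 (inSeg_real (inSeg_left hs)).1 (inSeg_real (inSeg_left hs)).2]

theorem lin_out (c : ℚ) {s s' : Seg} (hs : SegOk s) (hs' : SegOk s') (hsep : SegSep s s') {y : ℚ}
    (h : InSeg s y) : lin c s' y = 0 := by
  rw [lin_eq _ (small_of_ok hs') (inSeg_window hs h), prof_zero hs'.2.1 (sep_real hsep h),
    mul_zero]

theorem deriv_lin_out (c : ℚ) {s s' : Seg} (hs : SegOk s) (hs' : SegOk s') (hsep : SegSep s s')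
    {y : ℚ} (h : InSeg s y) : deriv (lin c s') y = 0 := by
  rw [deriv_lin _ (small_of_ok hs') (inSeg_window hs h)
    (hasDerivAt_prof_zero hs'.2.1 (sep_real hsep h)), prof_zero hs'.2.1 (sep_real hsep h)]
  simp

theorem lin_quarter (c : ℚ) {y : ℝ} (hy : y ∈ Icc (0 : ℝ) (1 / 4)) :
    lin c (0, 1 / 4) y = y - c := by
  rw [lin_eq c small_quarter ⟨by linarith [hy.1], by linarith [hy.2]⟩,
    prof_one (by norm_num) (by simpa using hy.1) (by simpa using hy.2), mul_one]

/-- The plateau function of a rectangle. -/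
def box (R : Rect) (y z : ℝ) : ℝ := plat R.1 y * plat R.2 z

theorem box_in {R : Rect} (hR : RectOk R) {p : ℚ × ℚ} (h : InRect R p) : box R p.1 p.2 = 1 := by
  rw [box, plat_in hR.1 h.1, plat_in hR.2 h.2, one_mul]

theorem box_out {R R' : Rect} (hR : RectOk R) (hR' : RectOk R') (hsep : RectSep R R')
    {p : ℚ × ℚ} (h : InRect R p) : box R' p.1 p.2 = 0 := by
  rcases hsep with hs | hs
  · rw [box, plat_out hR.1 hR'.1 hs h.1, zero_mul]
  · rw [box, plat_out hR.2 hR'.2 hs h.2, mul_zero]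

/-! ### The clocks -/

/-- The bump `ρ (10 t - (2 k + 1))`. -/
def thB (k : ℕ) : Bump := (0, Sum.inl 0, 10, 2 * (k : ℚ) + 1)

theorem thB_valid (k : ℕ) : (thB k).Valid := by
  change (10 : ℚ) ≠ 0
  norm_num

theorem thB_eval (k : ℕ) (t : ℝ) : (thB k).eval t = rho (10 * t - (2 * k + 1)) := by
  rw [thB, Bump.eval_inl]
  simp

/-- The periodic speed of the slot `k`. -/
def th (k : ℕ) (t : ℝ) : ℝ := (10 : ℚ) * kappa⁻¹ * per (thB k).eval t

theorem adm_th (k : ℕ) : (fun t _ => th k t : Fn) ∈ Adm :=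
  adm_mul (adm_mul (adm_rat 10) adm_kinv) (adm_per_t (thB_valid k))

/-- The speed of the clock `m`. -/
def spd (m : ℕ) (t : ℝ) : ℝ := 10 * kappa⁻¹ * rho (10 * t - (2 * m + 1))

/-- The clock `m`. -/
def clk (m : ℕ) (t : ℝ) : ℝ := kappa⁻¹ * sigma (10 * t - (2 * m + 1))

theorem clock (m : ℕ) : Clock (spd m) (clk m) m where
  deriv t := by
    have h1 : HasDerivAt (fun t : ℝ => 10 * t - (2 * m + 1)) 10 t := by
      simpa using ((hasDerivAt_id t).const_mul (10 : ℝ)).sub_const (2 * (m : ℝ) + 1)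
    refine (((hasDerivAt_sigma _).comp t h1).const_mul kappa⁻¹).congr_deriv ?_
    rw [spd]; ring
  start := by rw [clk, sigma_zero (by linarith), mul_zero]
  stop := by rw [clk, sigma_kappa (by linarith), inv_mul_cancel₀ kappa_pos.ne']
  nonneg t := mul_nonneg (inv_pos.2 kappa_pos).le (sigma_nonneg _)
  le_one t := by
    rw [clk, inv_mul_le_iff₀ kappa_pos, mul_one]
    exact sigma_le _

theorem th_slot {k k' : ℕ} (hk : k < 5) (hk' : k' < 5) (n : ℕ) {t : ℝ}
    (ht : t ∈ slot (5 * n + k)) : th k' t = if k' = k then spd (5 * n + k) t else 0 := by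
  have h1 : ((k : ℝ)) / 5 ≤ t - n := by
    have := ht.1
    push_cast at this
    linarith
  have h2 : t - n ≤ ((k : ℝ) + 1) / 5 := by
    have := ht.2
    push_cast at this
    linarith
  have k0 : (0 : ℝ) ≤ k := Nat.cast_nonneg k
  have k4 : (k : ℝ) ≤ 4 := by exact_mod_cast (by omega : k ≤ 4)
  have k0' : (0 : ℝ) ≤ k' := Nat.cast_nonneg k'
  have k4' : (k' : ℝ) ≤ 4 := by exact_mod_cast (by omega : k' ≤ 4)
  have h3 : per (thB k').eval t = rho (10 * (t - n) - (2 * k' + 1)) := by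
    rw [← per_add_int _ t (-(n : ℤ)), per_eq_self (lo := k' / 5) (hi := (k' + 1) / 5)
      (fun v hv => ?_) (fun v hv => ?_) (by push_cast; linarith) (by push_cast; linarith),
      thB_eval]
    · push_cast
      congr 1
    · rw [thB_eval, rho_zero (le_abs'.2 (Or.inl (by linarith)))]
    · rw [thB_eval, rho_zero (le_abs.2 (Or.inl (by linarith)))]
  rw [th, h3]
  split_ifs with h
  · subst h
    rw [spd]
    push_cast
    congr 2
    ring
  · rcases lt_or_gt_of_ne h with h | h
    · have : (k' : ℝ) + 1 ≤ k := by exact_mod_cast h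
      rw [rho_zero (le_abs.2 (Or.inl (by linarith))), mul_zero]
    · have : (k : ℝ) + 1 ≤ k' := by exact_mod_cast h
      rw [rho_zero (le_abs'.2 (Or.inl (by linarith))), mul_zero]

theorem theta0_eq (t : ℝ) : theta0 t = spd 0 t := by
  simp [theta0, spd]

theorem theta0_late {t : ℝ} (h : 1 / 5 ≤ t) : theta0 t = 0 := by
  rw [theta0, rho_zero (le_abs.2 (Or.inl (by linarith))), mul_zero]

theorem slot_late {m : ℕ} (hm : 1 ≤ m) {t : ℝ} (ht : t ∈ slot m) : 1 / 5 ≤ t := by
  have : (1 : ℝ) ≤ m := by exact_mod_cast hm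
  linarith [ht.1]

/-! ### Sums over lists -/

theorem sum_select {α : Type} {R : α → α → Prop} {L : List α} (hL : L.Pairwise R) {r : α}
    (hr : r ∈ L) (f : α → ℝ) (h : ∀ r' ∈ L, R r r' ∨ R r' r → f r' = 0) :
    (L.map f).sum = f r := by
  induction L with
  | nil => simp at hr
  | cons a L ih =>
    rw [List.pairwise_cons] at hL
    rw [List.map_cons, List.sum_cons]
    rcases List.mem_cons.1 hr with rfl | hr
    · rw [List.sum_eq_zero, add_zero]
      intro v hv
      obtain ⟨b, hb, rfl⟩ := List.mem_map.1 hv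
      exact h b (List.mem_cons_of_mem _ hb) (Or.inl (hL.1 b hb))
    · rw [h a List.mem_cons_self (Or.inr (hL.1 r hr)), zero_add]
      exact ih hL.2 hr fun b hb => h b (List.mem_cons_of_mem _ hb)

theorem sum_zero {α : Type} {L : List α} (f : α → ℝ) (h : ∀ r ∈ L, f r = 0) :
    (L.map f).sum = 0 := by
  refine List.sum_eq_zero fun v hv => ?_
  obtain ⟨b, hb, rfl⟩ := List.mem_map.1 hv
  exact h b hb

theorem hasDerivAt_listSum {α : Type} (L : List α) (f : α → ℝ → ℝ) (f' : α → ℝ) (s : ℝ)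
    (h : ∀ r ∈ L, HasDerivAt (f r) (f' r) s) :
    HasDerivAt (fun s => (L.map fun r => f r s).sum) (L.map f').sum s := by
  induction L with
  | nil => simpa using hasDerivAt_const s (0 : ℝ)
  | cons a L ih =>
    simp only [List.map_cons, List.sum_cons]
    exact (h a List.mem_cons_self).add (ih fun b hb => h b (List.mem_cons_of_mem _ hb))

/-! ### The field -/

/-- The logarithm of the first ratio of a rule. -/
def lg1 (r : Rule) : ℝ := Real.log ((r.2.1.1.2 / r.1.1.2 : ℚ) : ℝ)

/-- The logarithm of the second ratio of a rule. -/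
def lg2 (r : Rule) : ℝ := Real.log ((r.2.1.2.2 / r.1.2.2 : ℚ) : ℝ)

/-- The layer function of a rule. -/
def lay (r : Rule) : ℝ → ℝ := lin r.2.2.1 r.2.2

/-- The first linear function of a rule. -/
def li1 (r : Rule) : ℝ → ℝ := lin r.1.1.1 (0, 1 / 4)

/-- The second linear function of a rule. -/
def li2 (r : Rule) : ℝ → ℝ := lin r.1.2.1 (0, 1 / 4)

/-- The vertical component. -/
def U0 (rules : List Rule) (halts : List Rect) (t x y z : ℝ) : ℝ :=
  th 1 t * ((rules.map fun r => (r.2.2.1 : ℝ) * box r.1 y z).sum +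
    (halts.map fun h => ((1 / 2 : ℚ) : ℝ) * box h y z).sum) -
  th 4 t * (rules.map fun r => (r.2.2.1 : ℝ) * box r.2.1 y z).sum -
  th 2 t * (rules.map fun r =>
    lay r x * (lg1 r * deriv (li1 r) y + lg2 r * deriv (li2 r) z)).sum

/-- The first horizontal component. -/
def U1 (rules : List Rule) (t x y : ℝ) : ℝ :=
  th 2 t * (rules.map fun r => deriv (lay r) x * (lg1 r * li1 r y)).sum +
  th 3 t * (rules.map fun r => ((r.2.1.1.1 - r.1.1.1 : ℚ) : ℝ) * plat r.2.2 x).sum

/-- The second horizontal component. -/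
def U2 (rules : List Rule) (t x z : ℝ) : ℝ :=
  th 2 t * (rules.map fun r => deriv (lay r) x * (lg2 r * li2 r z)).sum +
  th 3 t * (rules.map fun r => ((r.2.1.2.1 - r.1.2.1 : ℚ) : ℝ) * plat r.2.2 x).sum

/-- The periodic field. -/
def UU (rules : List Rule) (halts : List Rect) : Fin 3 → Fn :=
  ![fun t x => U0 rules halts t (x 0) (x 1) (x 2), fun t x => U1 rules t (x 0) (x 1),
    fun t x => U2 rules t (x 0) (x 2)]

variable {rules : List Rule} {halts : List Rect}

theorem admX_lay (hG : Good rules halts) {r : Rule} (hr : r ∈ rules) : AdmX (lay r) :=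
  admX_lin _ (hG.ht_ok r hr).2.1

theorem admX_li1 (r : Rule) : AdmX (li1 r) := admX_lin _ (by norm_num)

theorem admX_li2 (r : Rule) : AdmX (li2 r) := admX_lin _ (by norm_num)

theorem adm_lg1 (hG : Good rules halts) {r : Rule} (hr : r ∈ rules) :
    (fun _ _ => lg1 r : Fn) ∈ Adm :=
  adm_log (div_pos (hG.img_ok r hr).1.2.1 (hG.dom_ok r hr).1.2.1)

theorem adm_lg2 (hG : Good rules halts) {r : Rule} (hr : r ∈ rules) :
    (fun _ _ => lg2 r : Fn) ∈ Adm :=
  adm_log (div_pos (hG.img_ok r hr).2.2.1 (hG.dom_ok r hr).2.2.1)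

theorem adm_box {R : Rect} (hR : RectOk R) : (fun _ x => box R (x 1) (x 2) : Fn) ∈ Adm :=
  adm_mul (admX_plat hR.1.2.1 1) (admX_plat hR.2.2.1 2)

theorem adm_UU (hG : Good rules halts) (i : Fin 3) : UU rules halts i ∈ Adm := by
  fin_cases i
  · refine adm_sub (adm_sub (adm_mul (adm_th 1) (adm_add
      (adm_listSum rules (fun r _ x => (r.2.2.1 : ℝ) * box r.1 (x 1) (x 2)) fun r hr => ?_)
      (adm_listSum halts (fun h _ x => ((1 / 2 : ℚ) : ℝ) * box h (x 1) (x 2)) fun h hh => ?_)))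
      (adm_mul (adm_th 4)
        (adm_listSum rules (fun r _ x => (r.2.2.1 : ℝ) * box r.2.1 (x 1) (x 2)) fun r hr => ?_)))
      (adm_mul (adm_th 2) (adm_listSum rules (fun r _ x => lay r (x 0) *
        (lg1 r * deriv (li1 r) (x 1) + lg2 r * deriv (li2 r) (x 2))) fun r hr => ?_))
    · exact adm_mul (adm_rat _) (adm_box (hG.dom_ok r hr))
    · exact adm_mul (adm_rat _) (adm_box (hG.halt_ok h hh))
    · exact adm_mul (adm_rat _) (adm_box (hG.img_ok r hr))
    · exact adm_mul (admX_lay hG hr 0) (adm_add (adm_mul (adm_lg1 hG hr) ((admX_li1 r).deriv 1))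
        (adm_mul (adm_lg2 hG hr) ((admX_li2 r).deriv 2)))
  · refine adm_add (adm_mul (adm_th 2) (adm_listSum rules
      (fun r _ x => deriv (lay r) (x 0) * (lg1 r * li1 r (x 1))) fun r hr => ?_))
      (adm_mul (adm_th 3) (adm_listSum rules
      (fun r _ x => ((r.2.1.1.1 - r.1.1.1 : ℚ) : ℝ) * plat r.2.2 (x 0)) fun r hr => ?_))
    · exact adm_mul ((admX_lay hG hr).deriv 0) (adm_mul (adm_lg1 hG hr) (admX_li1 r 1))
    · exact adm_mul (adm_rat _) (admX_plat (hG.ht_ok r hr).2.1 0)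
  · refine adm_add (adm_mul (adm_th 2) (adm_listSum rules
      (fun r _ x => deriv (lay r) (x 0) * (lg2 r * li2 r (x 2))) fun r hr => ?_))
      (adm_mul (adm_th 3) (adm_listSum rules
      (fun r _ x => ((r.2.1.2.1 - r.1.2.1 : ℚ) : ℝ) * plat r.2.2 (x 0)) fun r hr => ?_))
    · exact adm_mul ((admX_lay hG hr).deriv 0) (adm_mul (adm_lg2 hG hr) (admX_li2 r 2))
    · exact adm_mul (adm_rat _) (admX_plat (hG.ht_ok r hr).2.1 0)

theorem div_UU (hG : Good rules halts) (t : ℝ) (x : Fin 3 → ℝ) :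
    ∑ j, dx j (UU rules halts j) t x = 0 := by
  have e0 : dx 0 (UU rules halts 0) t x = -(th 2 t * (rules.map fun r => deriv (lay r) (x 0) *
      (lg1 r * deriv (li1 r) (x 1) + lg2 r * deriv (li2 r) (x 2))).sum) := by
    have h := ((hasDerivAt_listSum rules (fun r s => lay r s *
      (lg1 r * deriv (li1 r) (x 1) + lg2 r * deriv (li2 r) (x 2))) _ (x 0) fun r hr =>
        ((admX_lay hG hr).differentiable (x 0)).hasDerivAt.mul_const _).const_mul
          (th 2 t)).const_sub (th 1 t * ((rules.map fun r => (r.2.2.1 : ℝ) *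
            box r.1 (x 1) (x 2)).sum + (halts.map fun h => ((1 / 2 : ℚ) : ℝ) *
              box h (x 1) (x 2)).sum) -
            th 4 t * (rules.map fun r => (r.2.2.1 : ℝ) * box r.2.1 (x 1) (x 2)).sum)
    exact h.deriv
  have e1 : dx 1 (UU rules halts 1) t x = th 2 t * (rules.map fun r => deriv (lay r) (x 0) *
      (lg1 r * deriv (li1 r) (x 1))).sum := by
    have h := ((hasDerivAt_listSum rules (fun r s => deriv (lay r) (x 0) * (lg1 r * li1 r s)) _
      (x 1) fun r _ => (((admX_li1 r).differentiable (x 1)).hasDerivAt.const_mul _).const_mul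
        _).const_mul (th 2 t)).add_const
      (th 3 t * (rules.map fun r => ((r.2.1.1.1 - r.1.1.1 : ℚ) : ℝ) * plat r.2.2 (x 0)).sum)
    exact h.deriv
  have e2 : dx 2 (UU rules halts 2) t x = th 2 t * (rules.map fun r => deriv (lay r) (x 0) *
      (lg2 r * deriv (li2 r) (x 2))).sum := by
    have h := ((hasDerivAt_listSum rules (fun r s => deriv (lay r) (x 0) * (lg2 r * li2 r s)) _
      (x 2) fun r _ => (((admX_li2 r).differentiable (x 2)).hasDerivAt.const_mul _).const_mul
        _).const_mul (th 2 t)).add_const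
      (th 3 t * (rules.map fun r => ((r.2.1.2.1 - r.1.2.1 : ℚ) : ℝ) * plat r.2.2 (x 0)).sum)
    exact h.deriv
  rw [Fin.sum_univ_three, e0, e1, e2]
  simp only [mul_add, List.sum_map_add]
  ring

theorem UU_idle (n : ℕ) {t : ℝ} (ht : t ∈ slot (5 * n + 0)) (i : Fin 3) (x : Fin 3 → ℝ) :
    UU rules halts i t x = 0 := by
  have h1 := th_slot (k' := 1) (by norm_num) (by norm_num) n ht
  have h2 := th_slot (k' := 2) (by norm_num) (by norm_num) n ht
  have h3 := th_slot (k' := 3) (by norm_num) (by norm_num) n ht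
  have h4 := th_slot (k' := 4) (by norm_num) (by norm_num) n ht
  simp only [OfNat.ofNat_ne_zero, one_ne_zero, if_false] at h1 h2 h3 h4
  fin_cases i <;> simp [UU, U0, U1, U2, h1, h2, h3, h4]

theorem vec_ext {a b c : ℝ} {u : Fin 3 → ℝ} (h0 : u 0 = a) (h1 : u 1 = b) (h2 : u 2 = c) :
    u = ![a, b, c] := by
  funext i
  fin_cases i
  exacts [h0, h1, h2]

theorem drives (hG : Good rules halts) (β γ : ℚ) :
    Drives (fun t x i => vel (UU rules halts) β γ i t x) rules halts β γ spd clk where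
  clock := clock
  load t ht x := by
    have h := fun i => UU_idle (rules := rules) (halts := halts) 0 (t := t) ht i x
    refine vec_ext ?_ ?_ ?_ <;> simp [vel, h, theta0_eq]
  idle n t ht x := by
    have h := fun i => UU_idle (rules := rules) (halts := halts) (n + 1) (t := t) ht i x
    funext i
    simp [vel, h, theta0_late (slot_late (by omega) ht)]
  lift n t ht r hr p hp x := by
    have h0 := theta0_late (slot_late (by omega) ht)
    have h1 := th_slot (k' := 1) (by norm_num) (by norm_num) n ht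
    have h2 := th_slot (k' := 2) (by norm_num) (by norm_num) n ht
    have h3 := th_slot (k' := 3) (by norm_num) (by norm_num) n ht
    have h4 := th_slot (k' := 4) (by norm_num) (by norm_num) n ht
    simp only [if_true, OfNat.ofNat_ne_one, if_false] at h1 h2 h3 h4
    have s1 : (rules.map fun r => (r.2.2.1 : ℝ) * box r.1 p.1 p.2).sum = r.2.2.1 := by
      rw [sum_select hG.dom_sep hr _ fun r' hr' h => ?_, box_in (hG.dom_ok r hr) hp, mul_one]
      rw [box_out (hG.dom_ok r hr) (hG.dom_ok r' hr') (h.elim And.left And.right) hp, mul_zero]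
    have s2 : (halts.map fun h => ((1 / 2 : ℚ) : ℝ) * box h p.1 p.2).sum = 0 :=
      sum_zero _ fun h hh => by
        rw [box_out (hG.dom_ok r hr) (hG.halt_ok h hh) (hG.dom_halt_sep r hr h hh).1 hp, mul_zero]
    refine vec_ext ?_ ?_ ?_
    · change U0 rules halts t x p.1 p.2 + theta0 t * 0 = _
      rw [U0, s1, s2, h1, h2, h4]; ring
    · change U1 rules t x p.1 + theta0 t * β = _
      rw [U1, h0, h2, h3]; ring
    · change U2 rules t x p.2 + theta0 t * γ = _
      rw [U2, h0, h2, h3]; ring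
  liftH n t ht h hh p hp x := by
    have h0 := theta0_late (slot_late (by omega) ht)
    have h1 := th_slot (k' := 1) (by norm_num) (by norm_num) n ht
    have h2 := th_slot (k' := 2) (by norm_num) (by norm_num) n ht
    have h3 := th_slot (k' := 3) (by norm_num) (by norm_num) n ht
    have h4 := th_slot (k' := 4) (by norm_num) (by norm_num) n ht
    simp only [if_true, OfNat.ofNat_ne_one, if_false] at h1 h2 h3 h4
    have s1 : (rules.map fun r => (r.2.2.1 : ℝ) * box r.1 p.1 p.2).sum = 0 :=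
      sum_zero _ fun r hr => by
        rw [box_out (hG.halt_ok h hh) (hG.dom_ok r hr) (hG.dom_halt_sep r hr h hh).2 hp, mul_zero]
    have s2 : (halts.map fun h => ((1 / 2 : ℚ) : ℝ) * box h p.1 p.2).sum = 1 / 2 := by
      rw [sum_select hG.halt_sep hh _ fun h' hh' hs => ?_, box_in (hG.halt_ok h hh) hp]
      · norm_num
      · rw [box_out (hG.halt_ok h hh) (hG.halt_ok h' hh') (hs.elim And.left And.right) hp,
          mul_zero]
    refine vec_ext ?_ ?_ ?_
    · change U0 rules halts t x p.1 p.2 + theta0 t * 0 = _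
      rw [U0, s1, s2, h1, h2, h4]; ring
    · change U1 rules t x p.1 + theta0 t * β = _
      rw [U1, h0, h2, h3]; ring
    · change U2 rules t x p.2 + theta0 t * γ = _
      rw [U2, h0, h2, h3]; ring
  scale n t ht r hr y hy z hz := by
    have h0 := theta0_late (slot_late (by omega) ht)
    have h1 := th_slot (k' := 1) (by norm_num) (by norm_num) n ht
    have h2 := th_slot (k' := 2) (by norm_num) (by norm_num) n ht
    have h3 := th_slot (k' := 3) (by norm_num) (by norm_num) n ht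
    have h4 := th_slot (k' := 4) (by norm_num) (by norm_num) n ht
    norm_num at h1 h2 h3 h4
    have ok := hG.ht_ok r hr
    have s0 : ∀ F : Rule → ℝ, (rules.map fun r' => lay r' r.2.2.1 * F r').sum = 0 := by
      intro F
      rw [sum_select hG.ht_sep hr _ fun r' hr' h => ?_, lay, lin_left ok, zero_mul]
      rw [lay, lin_out _ ok (hG.ht_ok r' hr') (h.elim And.left And.right) (inSeg_left ok),
        zero_mul]
    have s1 : ∀ F : Rule → ℝ, (rules.map fun r' => deriv (lay r') r.2.2.1 * F r').sum = F r := by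
      intro F
      rw [sum_select hG.ht_sep hr _ fun r' hr' h => ?_, lay, deriv_lin_left ok, one_mul]
      rw [lay, deriv_lin_out _ ok (hG.ht_ok r' hr') (h.elim And.left And.right) (inSeg_left ok),
        zero_mul]
    refine vec_ext ?_ ?_ ?_
    · change U0 rules halts t r.2.2.1 y z + theta0 t * 0 = _
      rw [U0, s0, h1, h4]; ring
    · change U1 rules t r.2.2.1 y + theta0 t * β = _
      rw [U1, s1, h0, h2, h3, li1, lin_quarter _ hy, lg1]; ring
    · change U2 rules t r.2.2.1 z + theta0 t * γ = _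
      rw [U2, s1, h0, h2, h3, li2, lin_quarter _ hz, lg2]; ring
  move n t ht r hr y z := by
    have h0 := theta0_late (slot_late (by omega) ht)
    have h1 := th_slot (k' := 1) (by norm_num) (by norm_num) n ht
    have h2 := th_slot (k' := 2) (by norm_num) (by norm_num) n ht
    have h3 := th_slot (k' := 3) (by norm_num) (by norm_num) n ht
    have h4 := th_slot (k' := 4) (by norm_num) (by norm_num) n ht
    norm_num at h1 h2 h3 h4
    have ok := hG.ht_ok r hr
    have s1 : ∀ F : Rule → ℝ, (rules.map fun r' => F r' * plat r'.2.2 r.2.2.1).sum = F r := by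
      intro F
      rw [sum_select hG.ht_sep hr _ fun r' hr' h => ?_, plat_in ok (inSeg_left ok), mul_one]
      rw [plat_out ok (hG.ht_ok r' hr') (h.elim And.left And.right) (inSeg_left ok), mul_zero]
    refine vec_ext ?_ ?_ ?_
    · change U0 rules halts t r.2.2.1 y z + theta0 t * 0 = _
      rw [U0, h1, h2, h4]; ring
    · change U1 rules t r.2.2.1 y + theta0 t * β = _
      rw [U1, s1, h0, h2, h3]; ring
    · change U2 rules t r.2.2.1 z + theta0 t * γ = _
      rw [U2, s1, h0, h2, h3]; ring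
  drop n t ht r hr p hp x := by
    have h0 := theta0_late (slot_late (by omega) ht)
    have h1 := th_slot (k' := 1) (by norm_num) (by norm_num) n ht
    have h2 := th_slot (k' := 2) (by norm_num) (by norm_num) n ht
    have h3 := th_slot (k' := 3) (by norm_num) (by norm_num) n ht
    have h4 := th_slot (k' := 4) (by norm_num) (by norm_num) n ht
    norm_num at h1 h2 h3 h4
    have s1 : (rules.map fun r => (r.2.2.1 : ℝ) * box r.2.1 p.1 p.2).sum = r.2.2.1 := by
      rw [sum_select hG.img_sep hr _ fun r' hr' h => ?_, box_in (hG.img_ok r hr) hp, mul_one]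
      rw [box_out (hG.img_ok r hr) (hG.img_ok r' hr') (h.elim And.left And.right) hp, mul_zero]
    refine vec_ext ?_ ?_ ?_
    · change U0 rules halts t x p.1 p.2 + theta0 t * 0 = _
      rw [U0, s1, h1, h2, h4]; ring
    · change U1 rules t x p.1 + theta0 t * β = _
      rw [U1, h0, h2, h3]; ring
    · change U2 rules t x p.2 + theta0 t * γ = _
      rw [U2, h0, h2, h3]; ring

theorem contDiff_theta0 : ContDiff ℝ ∞ theta0 :=
  contDiff_const.mul (contDiff_rho.comp (by fun_prop))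

theorem nice_of {u : Fin 3 → Fn}
    (h1 : ∀ i, ContDiff ℝ ∞ fun z : ℝ × (Fin 3 → ℝ) => u i z.1 z.2)
    (h2 : ∀ i t (x : Fin 3 → ℝ) (m : Fin 3 → ℤ), u i t (x + fun k => (m k : ℝ)) = u i t x) :
    Nice fun t x i => u i t x where
  smooth := contDiff_pi.2 fun i => (h1 i).of_le (by exact_mod_cast le_top)
  per t x j := by
    funext i
    rw [← h2 i t x (Pi.single j 1)]
    congr 2
    funext k
    by_cases h : k = j
    · subst h; simp
    · simp [Pi.single_eq_of_ne h]

theorem nice_vel (hG : Good rules halts) (β γ : ℚ) :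
    Nice fun t x i => vel (UU rules halts) β γ i t x :=
  nice_of (fun i => (admCalc _ (adm_UU hG i)).1.add
    ((contDiff_theta0.comp contDiff_fst).mul contDiff_const)) fun i t x m => by
      simp only [vel, (admCalc _ (adm_UU hG i)).2.1 t x m]

/-- Block E1. -/
theorem traj : TrajStmt := by
  intro u h1 h2 a
  have hN := nice_of h1 h2
  refine ⟨?_, fun X Y hX hY => hN.traj_unique hX.2 hY.2 (hX.1.trans hY.1.symm)⟩
  obtain ⟨X, hX⟩ := hN.exists_traj a
  exact ⟨X, hX⟩

/-- Block E, with the position at the time of detection. -/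
theorem flow_strong (rules : List Rule) (halts : List Rect) (hG : Good rules halts) :
    ∃ U : Fin 3 → Fn, (∀ i, U i ∈ Adm) ∧ (∀ t x, ∑ j, dx j (U j) t x = 0) ∧
      (∀ i, ∀ t ∈ Icc (0 : ℝ) (1 / 5), ∀ x, U i t x = 0) ∧
      ∀ (p : ℕ → ℚ × ℚ) (X : ℝ → Fin 3 → ℝ), IsTrajectory (vel U (p 0).1 (p 0).2) 0 X →
        ((∀ n, Step rules (p n) (p (n + 1))) → ∀ t, 0 ≤ t → X t 0 ∈ Icc (0 : ℝ) (1 / 8)) ∧
        ∀ N, (∀ n < N, Step rules (p n) (p (n + 1))) → Halted halts (p N) →
          ∃ t, 0 ≤ t ∧ X t 0 = 1 / 2 ∧ X t 1 ∈ Icc (0 : ℝ) (1 / 8) ∧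
            X t 2 ∈ Icc (0 : ℝ) (1 / 8) := by
  refine ⟨UU rules halts, adm_UU hG, div_UU hG, fun i t ht x => UU_idle 0 ?_ i x,
    fun p X hX => ⟨fun hs => ?_, fun N hs hN => ?_⟩⟩
  · simpa [slot] using ht
  · exact low_of_orbit (nice_vel hG _ _) hG (drives hG _ _) hX.2 hX.1 rfl hs
  · exact high_of_halt (nice_vel hG _ _) hG (drives hG _ _) hX.2 hX.1 rfl N hs hN

/-- Block E. -/
theorem flow : FlowStmt := by
  intro rules halts hG
  obtain ⟨U, h1, h2, h3, h4⟩ := flow_strong rules halts hG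
  refine ⟨U, h1, h2, h3, fun p X hX => ⟨(h4 p X hX).1, fun N hs hN => ?_⟩⟩
  obtain ⟨t, ht, h, _⟩ := (h4 p X hX).2 N hs hN
  exact ⟨t, ht, h⟩

end Vale.Agent.P113.Flow
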