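import Vale.Agent.P113B.Code0

/-! P113: the symbolic operations on codes of admissible functions. -/

namespace Vale.Agent.P113B

/-- The derivative of a bump, as a rational combination of bumps. -/
def dBump (g : Bump) : List (ℚ × Bump) :=
  ((g.1 : ℚ), (g.1 - 1, g.2)) ::
    Sum.elim (fun j : ℕ => [(g.2.2.1, (g.1, Sum.inl (j + 1), g.2.2))])
      (fun l : ℚ => [(g.2.2.1, (g.1, Sum.inl 0, g.2.2)),
        (-g.2.2.1, (g.1, Sum.inl 0, g.2.2.1, g.2.2.2 + l))]) g.2.1

/-- The derivative of a time factor. -/
def dTime (p : Bool × Bump) : List (ℚ × (Bool × Bump)) :=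
  (dBump p.2).map fun r => (r.1, (p.1, r.2))

/-- The product rule for a list of factors. -/
def dList {β : Type} (d : β → List (ℚ × β)) (L : List β) : List (ℚ × List β) :=
  (L.foldr (fun g (acc : List β × List (ℚ × List β)) =>
    (g :: acc.1, ((d g).map fun r => (r.1, r.2 :: acc.1)) ++ acc.2.map fun r => (r.1, g :: r.2)))
    ([], [])).2

/-- Multiplication of a coefficient by a rational. -/
def scaleC (q : ℚ) (c : Coef) : Coef := (q * c.1, c.2)

/-- Product of two coefficients. -/
def mulC (c e : Coef) : Coef :=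
  (c.1 * e.1, c.2.1 + e.2.1, c.2.2.1 + e.2.2.1, c.2.2.2 ++ e.2.2.2)

/-- Product of two terms. -/
def mulT (s t : Term) : Term := (mulC s.1 t.1, s.2.1 ++ t.2.1, fun i => s.2.2 i ++ t.2.2 i)

/-- Time derivative of a term. -/
def dtT (τ : Term) : List Term :=
  (dList dTime τ.2.1).map fun r => (scaleC r.1 τ.1, r.2, τ.2.2)

/-- Space derivative of a term in the direction `j`. -/
def dxT (j : Fin 3) (τ : Term) : List Term :=
  (dList dBump (τ.2.2 j)).map fun r =>
    (scaleC r.1 τ.1, τ.2.1, fun i => if i = j then r.2 else τ.2.2 i)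

/-- Product of two lists of terms. -/
def mulL (A B : List Term) : List Term := A.flatMap fun s => B.map fun t => mulT s t

/-- Multiplication of a list of terms by a rational. -/
def scaleL (q : ℚ) (A : List Term) : List Term := A.map fun τ => (scaleC q τ.1, τ.2)

/-- Multiplication of a list of terms by `-ν`. -/
def negNuL (A : List Term) : List Term :=
  A.map fun τ => ((-τ.1.1, τ.1.2.1 + 1, τ.1.2.2), τ.2)

/-- Time derivative of a list of terms. -/
def dtL (A : List Term) : List Term := A.flatMap dtT

/-- Space derivative of a list of terms. -/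
def dxL (j : Fin 3) (A : List Term) : List Term := A.flatMap (dxT j)

/-- The component `i` of `∂ₜ u + (u · ∇) u - ν Δ u`. -/
def nsL (U : Fin 3 → List Term) (i : Fin 3) : List Term :=
  dtL (U i) ++
    (mulL (U 0) (dxL 0 (U i)) ++ mulL (U 1) (dxL 1 (U i)) ++ mulL (U 2) (dxL 2 (U i))) ++
    negNuL (dxL 0 (dxL 0 (U i)) ++ dxL 1 (dxL 1 (U i)) ++ dxL 2 (dxL 2 (U i)))

theorem dList_fst {β : Type} (d : β → List (ℚ × β)) (L : List β) :
    (L.foldr (fun g (acc : List β × List (ℚ × List β)) =>
      (g :: acc.1, ((d g).map fun r => (r.1, r.2 :: acc.1)) ++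
        acc.2.map fun r => (r.1, g :: r.2))) ([], [])).1 = L := by
  induction L with
  | nil => rfl
  | cons g L ih => simp only [List.foldr_cons, ih]

@[simp] theorem dList_nil {β : Type} (d : β → List (ℚ × β)) : dList d [] = [] := rfl

theorem dList_cons {β : Type} (d : β → List (ℚ × β)) (g : β) (L : List β) :
    dList d (g :: L) =
      ((d g).map fun r => (r.1, r.2 :: L)) ++ (dList d L).map fun r => (r.1, g :: r.2) := by
  unfold dList
  simp only [List.foldr_cons, dList_fst]

end Vale.Agent.P113B
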